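import Vale.Agent.P153.Planar.Circ

/-! Crossings of rectangles: meeting and duality. Covering lemmas. -/

open Set

namespace Vale.Agent.P153

variable {a b c d x y : V} {A B S : Set V} {E E' : V → V → Prop} {n N r R : ℕ}

/-- A left-right crossing inside a horizontal strip meets a bottom-top crossing inside a vertical
strip. -/
theorem meet_box {l r s t : ℤ} (hA : ∀ v ∈ A, s ≤ v.2 ∧ v.2 ≤ t) (hB : ∀ v ∈ B, l ≤ v.1 ∧ v.1 ≤ r)
    (ha : a ∈ A) (hc : c ∈ B) (h1 : Conn E A a b) (h2 : Conn E' B c d) (k1 : a.1 ≤ l)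
    (k2 : r ≤ b.1) (k3 : c.2 ≤ s) (k4 : t ≤ d.2) : ∃ v ∈ A, v ∈ B := by
  have hst : s ≤ t := (hA a ha).1.trans (hA a ha).2
  have hlr : l ≤ r := (hB c hc).1.trans (hB c hc).2
  obtain ⟨p, q, e1, e2, l1, l2, -⟩ := h2.between lip_snd hst k3 k4
  obtain ⟨a', b', e3, e4, l3, l4, -⟩ := h1.between lip_fst hlr k1 k2
  have hp : p ∈ B ∩ {y | s ≤ y.2 ∧ y.2 ≤ t} := ⟨l1.mem hc, e1.ge, e1.le.trans hst⟩
  have ha' : a' ∈ A ∩ {y | l ≤ y.1 ∧ y.1 ≤ r} := ⟨l3.mem ha, e3.ge, e3.le.trans hlr⟩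
  have hq := l2.mem hp
  have hb' := l4.mem ha'
  let B' : Set V := B ∪ {(q.1, t + 1)}
  have l5 : Conn (fun _ _ => True) B' p (q.1, t + 1) :=
    (l2.mono (fun _ _ _ => trivial) fun _ h => Or.inl h.1).tail (by rw [adj_iff]; simp [e2]) trivial
      (Or.inl hq.1) (Or.inr rfl)
  obtain ⟨m, w, w0, wm, hw, hm⟩ := l5.walk (Or.inl hp.1)
  by_contra hne
  have hd : ∀ u ≤ m, w u ∉ A := fun u hu h => (hm u hu).elim (fun k => hne ⟨_, h, k⟩) fun k => by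
    have := (hA _ h).2
    rw [mem_singleton_iff.1 k] at this
    dsimp only at this; omega
  have hw' : ∀ u < m, Adj (w u) (w (u + 1)) := fun u hu => (hw u hu).1
  have hx : ∀ u ≤ m, l ≤ (w u).1 ∧ (w u).1 ≤ r := fun u hu => (hm u hu).elim (hB _) fun k => by
    rw [mem_singleton_iff.1 k]; exact hB q hq.1
  have key := wind_conn' hw' (A := A ∩ {y | l ≤ y.1 ∧ y.1 ≤ r}) (fun u hu h => hd u hu h.1)
    (fun x hx y hy _ => by
      have := hA x hx.1; have := hA y hy.1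
      rw [w0, wm]; unfold cutL; dsimp only; omega) l4
  rw [wind_eq_zero (x := b') fun u hu _ => e4 ▸ (hx u hu).2, wind_all hw' fun u hu e => ?_,
    w0, wm] at key
  · have := hA a' ha'.1
    refine Nat.not_odd_zero (key.1 ?_)
    dsimp only; omega
  · have := (hx u hu).1
    refine lt_of_le_of_ne (by omega) fun k => hd u hu ?_
    rw [show w u = a' from Prod.ext k.symm e]; exact ha'.1

/-- A left-right crossing and a bottom-top crossing of a rhombus have a common vertex. -/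
theorem meet_rh (hA : A ⊆ rh x n) (hB : B ⊆ rh x n) (ha : a ∈ A) (hc : c ∈ B) (h1 : Conn E A a b)
    (h2 : Conn E' B c d) (k1 : (a - x).1 = -n) (k2 : (b - x).1 = n) (k3 : (c - x).2 = -n)
    (k4 : (d - x).2 = n) : ∃ v ∈ A, v ∈ B := by
  rw [Prod.fst_sub] at k1 k2
  rw [Prod.snd_sub] at k3 k4
  exact meet_box (l := x.1 - n) (r := x.1 + n) (s := x.2 - n) (t := x.2 + n)
    (fun v h => (mem_rh.1 (hA h)).2.2) (fun v h => ⟨(mem_rh.1 (hB h)).1, (mem_rh.1 (hB h)).2.1⟩)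
    ha hc h1 h2 (by omega) (by omega) (by omega) (by omega)

theorem HCr.not_vcr (hn : 1 ≤ n) (h : HCr (both S) x n) : ¬ VCr (both Sᶜ) x n := by
  rintro ⟨c, d, k3, k4, -, h2⟩
  obtain ⟨a, b, k1, k2, -, h1⟩ := h
  rw [conn_both_iff] at h1 h2
  obtain ⟨v, l1, l2⟩ := meet_rh inter_subset_left inter_subset_left
    (h1.eq_or_mem.resolve_left (by rintro rfl; omega)).1
    (h2.eq_or_mem.resolve_left (by rintro rfl; omega)).1 h1 h2 k1 k2 k3 k4
  exact l2.2 l1.2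

/-- Duality in a rectangle: a connected set `U` containing the left half plane and otherwise
confined to the rectangle has a bottom-top crossing in its outer and in its inner boundary. -/
theorem cross_of_cn {U : Set V} {l r s t : ℤ} (hst : s ≤ t) (hU : Cn U)
    (h1 : ∀ v : V, v.1 < l → v ∈ U) (h2 : ∀ v ∈ U, v.1 < l ∨ (v.1 < r ∧ s ≤ v.2 ∧ v.2 ≤ t)) :
    ∃ W, Cn W ∧ Cn Wᶜ ∧ W ⊆ Uᶜ ∧ obd W ⊆ U ∧
      (∃ p q : V, p.2 = s ∧ q.2 = t ∧ p ∈ ibd W ∧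
        Conn (fun _ _ => True) (ibd W ∩ {v | s ≤ v.2 ∧ v.2 ≤ t}) p q) ∧
      ∃ p q : V, p.2 = s ∧ q.2 = t ∧ p ∈ obd W ∧
        Conn (fun _ _ => True) (obd W ∩ {v | s ≤ v.2 ∧ v.2 ≤ t}) p q := by
  let W := comp Uᶜ (l, s - 1)
  have c1 : Cn W := cn_comp _ _
  have c2 : Cn Wᶜ := cn_compl_comp hU ⟨(l - 1, s), h1 _ (by simp)⟩ _
  have out : ∀ i j : ℤ, l ≤ i → (r ≤ i ∨ j < s ∨ t < j) → (i, j) ∈ Uᶜ := fun i j k1 k2 h => by
    have := h2 _ h; dsimp only at this; omega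
  have m0 : (l, s - 1) ∈ W := self_mem_comp (out _ _ le_rfl (by omega))
  have m1 : (l, t + 1) ∈ W := ⟨m0.1, (conn_row' (i' := max l r) fun _ _ => out _ _ (by omega)
    (by omega)).trans ((conn_col' (j' := t + 1) fun _ _ => out _ _ (by omega) (by omega)).trans
      (conn_row' fun _ _ => out _ _ (by omega) (by omega)))⟩
  have n0 : ∀ j, (l - 1, j) ∉ W := fun j h => comp_subset h (h1 _ (by simp))
  have a0 : ∀ j : ℤ, Adj (l, j) (l - 1, j) := fun j => by simp [adj_iff]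
  refine ⟨W, c1, c2, comp_subset, fun v h => not_not.1 (obd_comp h).1, ?_, ?_⟩
  · have i0 : (l, s - 1) ∈ ibd W := ⟨m0, _, n0 _, a0 _⟩
    obtain ⟨p, q, e1, e2, k1, k2, -⟩ := (cn_ibd c1 c2 _ i0 _ ⟨m1, _, n0 _, a0 _⟩).between lip_snd
      hst (by simp) (by simp)
    exact ⟨p, q, e1, e2, k1.mem i0, k2⟩
  · have i0 : (l - 1, s - 1) ∈ obd W := ⟨n0 _, _, m0, (a0 _).symm⟩
    obtain ⟨p, q, e1, e2, k1, k2, -⟩ := (cn_obd c1 c2 _ i0 _ ⟨n0 _, _, m1, (a0 _).symm⟩).between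
      lip_snd hst (by simp) (by simp)
    exact ⟨p, q, e1, e2, k1.mem i0, k2⟩

theorem cn_left (l : ℤ) : Cn {v : V | v.1 < l} := fun ⟨_, _⟩ h ⟨_, _⟩ h' =>
  (conn_col' fun _ _ => h).trans (conn_row' fun k hk => by
    simp only [mem_ofPred_eq] at h h' ⊢; omega)

/-- The game of Hex has a winner. -/
theorem vcr_of_not_hcr (h : ¬ HCr (both S) x n) : VCr (both Sᶜ) x n := by
  let U := {v : V | v.1 < x.1 - n ∨ ∃ a, a.1 = x.1 - n ∧ a ∈ rh x n ∩ S ∧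
    Conn (both S) (rh x n) a v}
  have h2 : ∀ v ∈ U, v.1 < x.1 - n ∨ (v.1 < x.1 + n ∧ x.2 - n ≤ v.2 ∧ v.2 ≤ x.2 + n) := by
    rintro v (k | ⟨a, k1, k2, k3⟩)
    · exact Or.inl k
    · have := mem_rh.1 (k3.mem k2.1)
      refine Or.inr ⟨lt_of_le_of_ne this.2.1 fun e => h ⟨a, v, ?_, ?_, k2.1, k3⟩, this.2.2⟩ <;>
        rw [Prod.fst_sub] <;> omega
  have hU : Cn U := (cn_left (x.1 - n)).of_sub (E := fun _ _ => True) (fun _ => Or.inl) <| by
    rintro v (k | ⟨a, k1, k2, k3⟩)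
    · exact ⟨v, k, .rfl⟩
    · have : (a.1 - 1, a.2) ∈ {v : V | v.1 < x.1 - n} := by simp [k1]
      exact ⟨_, this, .head (by simp [adj_iff]) trivial (Or.inl this) (Or.inr ⟨a, k1, k2, .rfl⟩)
        (k3.cluster.mono (fun _ _ _ => trivial) fun _ k => Or.inr ⟨a, k1, k2, k.2⟩)⟩
  obtain ⟨W, -, -, c1, c2, ⟨p, q, e1, e2, k1, k2⟩, -⟩ :=
    cross_of_cn (r := x.1 + n) (by omega : x.2 - n ≤ x.2 + n) hU (fun _ => Or.inl) h2
  have key : ibd W ∩ {v | x.2 - n ≤ v.2 ∧ v.2 ≤ x.2 + n} ⊆ rh x n ∩ Sᶜ := by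
    rintro k ⟨⟨l1, u, l2, l3⟩, l4, l5⟩
    have l6 : u ∈ U := c2 ⟨l2, k, l1, l3.symm⟩
    have l7 : ¬ k.1 < x.1 - n := fun e => c1 l1 (Or.inl e)
    have l8 := h2 u l6
    have l9 := adj_iff.1 l3
    have l10 : k ∈ rh x n := mem_rh.2 (by omega)
    refine ⟨l10, fun hk => c1 l1 (Or.inr ?_)⟩
    rcases l6 with l6 | ⟨a, m1, m2, m3⟩
    · exact ⟨k, by omega, ⟨l10, hk⟩, .rfl⟩
    · exact ⟨a, m1, m2, m3.tail l3.symm ⟨m3.both_mem m2.2, hk⟩ (m3.mem m2.1) l10⟩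
  exact ⟨p, q, by rw [Prod.snd_sub]; omega, by rw [Prod.snd_sub]; omega,
    (key ⟨k1, by simp only [mem_ofPred_eq]; omega⟩).1, conn_both_iff.2 (k2.monoA key)⟩

theorem hcr_swap : HCr (fun a b => E a.swap b.swap) x.swap n ↔ VCr E x n := by
  have k : ∀ {x y : V}, y ∈ rh x n → y.swap ∈ rh x.swap n := fun h => ⟨h.2, h.1⟩
  exact ⟨fun ⟨a, b, h1, h2, h3, h4⟩ => ⟨a.swap, b.swap, h1, h2, k h3,
      h4.map isSym_swp (fun _ _ => id) fun _ => k⟩,
    fun ⟨a, b, h1, h2, h3, h4⟩ => ⟨a.swap, b.swap, h1, h2, k h3,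
      h4.map isSym_swp (fun _ _ => id) fun _ => k⟩⟩

theorem hcr_of_not_vcr (h : ¬ VCr (both S) x n) : HCr (both Sᶜ) x n :=
  by_contra fun k => h (compl_compl S ▸ vcr_of_not_hcr k)

/-! ### Covering -/

/-- A hexagon is covered by few small hexagons centred in it. -/
theorem cover (x : V) (R r : ℕ) : ∃ T : Finset V, T.card ≤ (2 * (R / (r + 1)) + 3) ^ 2 ∧
    ∀ y ∈ hex x R, ∃ z ∈ T, y ∈ hex z (2 * r) := by
  let k : ℤ := (R / (r + 1) : ℕ) + 1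
  refine ⟨(Finset.Icc (-k) k ×ˢ Finset.Icc (-k) k).image fun p =>
    (x.1 + (r + 1) * p.1, x.2 + (r + 1) * p.2), Finset.card_image_le.trans ?_, fun y hy => ?_⟩
  · rw [Finset.card_product, Int.card_Icc, sq]
    have : (k + 1 - -k).toNat = 2 * (R / (r + 1)) + 3 := by omega
    rw [this]
  · have hy := nrm_sub_le_iff.1 hy
    have h0 : (0 : ℤ) < r + 1 := by omega
    have key : ∀ u : ℤ, -(R : ℤ) ≤ u → u ≤ R → (-k ≤ u / (r + 1) ∧ u / (r + 1) ≤ k) ∧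
        (r + 1) * (u / (r + 1)) ≤ u ∧ u ≤ (r + 1) * (u / (r + 1)) + r := fun u h1 h2 => by
      have e1 := Int.mul_ediv_add_emod u (r + 1)
      have e2 := Int.emod_nonneg u h0.ne'
      have e3 := Int.emod_lt_of_pos u h0
      have e4 : (R : ℤ) < (r + 1) * k := by
        have := Nat.lt_mul_div_succ R (Nat.succ_pos r)
        simp only [k]; exact_mod_cast this
      refine ⟨⟨?_, ?_⟩, by omega, by omega⟩
      · exact Int.le_ediv_of_mul_le h0 (by linarith)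
      · exact Int.ediv_le_of_le_mul h0 (by linarith)
    obtain ⟨h1, h2⟩ := key (y.1 - x.1) (by omega) (by omega)
    obtain ⟨h3, h4⟩ := key (y.2 - x.2) (by omega) (by omega)
    refine ⟨_, Finset.mem_image.2 ⟨((y.1 - x.1) / (r + 1), (y.2 - x.2) / (r + 1)),
      Finset.mem_product.2 ⟨Finset.mem_Icc.2 h1, Finset.mem_Icc.2 h3⟩, rfl⟩, ?_⟩
    rw [mem_hex, nrm_sub_le_iff]
    dsimp only
    omega

/-- A long path starting in a hexagon contains an arm round one of the covering centres. -/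
theorem cover_arm (x : V) (R r : ℕ) : ∃ T : Finset V, T.card ≤ (2 * (R / (r + 1)) + 3) ^ 2 ∧
    (∀ z ∈ T, z ∈ hex x (R + 2 * r)) ∧ ∀ (E : V → V → Prop) (A : Set V) (a b : V) (N : ℕ),
      a ∈ hex x R → 2 * r ≤ N → N + 2 * r ≤ nrm (b - a) → Conn E A a b →
      ∃ z ∈ T, a ∈ hex z (2 * r) ∧ Arm E z (2 * r) N := by
  classical
  obtain ⟨T, h1, h2⟩ := cover x R r
  refine ⟨T.filter fun z => z ∈ hex x (R + 2 * r), (Finset.card_filter_le _ _).trans h1,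
    fun z hz => (Finset.mem_filter.1 hz).2, fun E A a b N ha hN hb hc => ?_⟩
  obtain ⟨z, k1, k2⟩ := h2 a ha
  have k3 := nrm_tri x a z
  have k4 := nrm_tri a z b
  have k5 := nrm_sub_comm a z
  rw [mem_hex] at ha k2
  exact ⟨z, Finset.mem_filter.2 ⟨k1, mem_hex.2 (by omega)⟩, k2, hc.arm k2 hN (by omega)⟩

end Vale.Agent.P153
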