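import Vale.Agent.P153.Core

/-! Basic facts on the lattice graph, the hexagonal norm and connections. -/

open Set

namespace Vale.Agent.P153

variable {E E' : V → V → Prop} {A A' B S S' : Set V} {a b c x y z : V} {n N n' N' : ℕ}

/-! ### The norm -/

theorem nrm_le_iff : nrm x ≤ n ↔ -(n : ℤ) ≤ x.1 ∧ x.1 ≤ n ∧ -(n : ℤ) ≤ x.2 ∧ x.2 ≤ n ∧
    -(n : ℤ) ≤ x.1 + x.2 ∧ x.1 + x.2 ≤ n := by
  unfold nrm; omega

theorem nrm_sub (x y : V) : nrm (y - x) =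
    max (max (y.1 - x.1).natAbs (y.2 - x.2).natAbs) (y.1 - x.1 + (y.2 - x.2)).natAbs := rfl

@[simp] theorem nrm_zero : nrm 0 = 0 := rfl

theorem nrm_eq_zero : nrm x = 0 ↔ x = 0 := by
  rw [Prod.ext_iff, Prod.fst_zero, Prod.snd_zero]; unfold nrm; omega

theorem nrm_neg (x : V) : nrm (-x) = nrm x := by
  simp only [nrm, Prod.fst_neg, Prod.snd_neg]; omega

theorem nrm_sub_comm (x y : V) : nrm (x - y) = nrm (y - x) := by rw [← nrm_neg, neg_sub]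

theorem nrm_add_le (x y : V) : nrm (x + y) ≤ nrm x + nrm y := by
  have h1 := nrm_le_iff.1 (le_refl (nrm x))
  have h2 := nrm_le_iff.1 (le_refl (nrm y))
  rw [nrm_le_iff, Prod.fst_add, Prod.snd_add]
  omega

theorem nrm_tri (x y z : V) : nrm (z - x) ≤ nrm (y - x) + nrm (z - y) := by
  have := nrm_add_le (y - x) (z - y)
  rwa [add_comm (y - x), sub_add_sub_cancel] at this

theorem adj_iff_nrm : Adj x y ↔ nrm (y - x) = 1 := by
  rw [adj_iff, nrm_sub]; omega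

theorem Adj.nrm_le (h : Adj a b) (x : V) : nrm (b - x) ≤ nrm (a - x) + 1 :=
  (nrm_tri x a b).trans_eq (by rw [adj_iff_nrm.1 h])

theorem Adj.nrm_lip (h : Adj a b) (x : V) : |(nrm (a - x) : ℤ) - nrm (b - x)| ≤ 1 := by
  have := h.nrm_le x
  have := h.symm.nrm_le x
  rw [abs_le]; omega

theorem nrm_sub_le_iff : nrm (y - x) ≤ n ↔ x.1 - n ≤ y.1 ∧ y.1 ≤ x.1 + n ∧ x.2 - n ≤ y.2 ∧
    y.2 ≤ x.2 + n ∧ x.1 + x.2 - n ≤ y.1 + y.2 ∧ y.1 + y.2 ≤ x.1 + x.2 + n := by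
  rw [nrm_le_iff, Prod.fst_sub, Prod.snd_sub]; omega

theorem le_nrm_sub_iff : n ≤ nrm (y - x) ↔ y.1 ≤ x.1 - n ∨ x.1 + n ≤ y.1 ∨ y.2 ≤ x.2 - n ∨
    x.2 + n ≤ y.2 ∨ y.1 + y.2 ≤ x.1 + x.2 - n ∨ x.1 + x.2 + n ≤ y.1 + y.2 := by
  rw [nrm_sub]; omega

/-- A neighbour that is closer to `x`. -/
theorem exists_closer (h : nrm (y - x) = n + 1) : ∃ z, Adj z y ∧ nrm (z - x) = n := by
  suffices H : ∃ z, Adj z y ∧ nrm (z - x) ≤ n by
    obtain ⟨z, h1, h2⟩ := H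
    have := h1.nrm_le x
    exact ⟨z, h1, by omega⟩
  have h1 := nrm_sub_le_iff.1 h.le
  have h2 := le_nrm_sub_iff.1 h.ge
  simp only [nrm_sub_le_iff, adj_iff]
  push_cast at h1 h2
  rcases le_total (y.1 - x.1) (y.2 - x.2) with a | a <;>
    rcases le_total (y.2 - x.2) (x.1 + x.2 - y.1 - y.2) with b | b <;>
    rcases le_total (y.1 - x.1) (x.1 + x.2 - y.1 - y.2) with c | c
  · exact ⟨(y.1 + 1, y.2), by dsimp only; omega⟩
  · exact ⟨(y.1 + 1, y.2), by dsimp only; omega⟩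
  · exact ⟨(y.1 + 1, y.2 - 1), by dsimp only; omega⟩
  · exact ⟨(y.1, y.2 - 1), by dsimp only; omega⟩
  · exact ⟨(y.1, y.2 + 1), by dsimp only; omega⟩
  · exact ⟨(y.1 - 1, y.2 + 1), by dsimp only; omega⟩
  · exact ⟨(y.1 - 1, y.2), by dsimp only; omega⟩
  · exact ⟨(y.1 - 1, y.2), by dsimp only; omega⟩

/-- A neighbour that is farther from `x`. -/
theorem exists_farther (x y : V) : ∃ z, Adj y z ∧ nrm (z - x) = nrm (y - x) + 1 := by
  suffices H : ∃ z, Adj y z ∧ nrm (y - x) + 1 ≤ nrm (z - x) by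
    obtain ⟨z, h1, h2⟩ := H
    exact ⟨z, h1, le_antisymm (h1.nrm_le x) h2⟩
  have h2 := le_nrm_sub_iff.1 (le_refl (nrm (y - x)))
  simp only [le_nrm_sub_iff, adj_iff]
  push_cast
  rcases h2 with h | h | h | h | h | h
  · exact ⟨(y.1 - 1, y.2), by dsimp only; omega⟩
  · exact ⟨(y.1 + 1, y.2), by dsimp only; omega⟩
  · exact ⟨(y.1, y.2 - 1), by dsimp only; omega⟩
  · exact ⟨(y.1, y.2 + 1), by dsimp only; omega⟩
  · exact ⟨(y.1 - 1, y.2), by dsimp only; omega⟩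
  · exact ⟨(y.1 + 1, y.2), by dsimp only; omega⟩

theorem mem_hex : y ∈ hex x n ↔ nrm (y - x) ≤ n := Iff.rfl

theorem mem_ann : y ∈ ann x n N ↔ n ≤ nrm (y - x) ∧ nrm (y - x) ≤ N := Iff.rfl

theorem mem_rh : y ∈ rh x n ↔ x.1 - n ≤ y.1 ∧ y.1 ≤ x.1 + n ∧ x.2 - n ≤ y.2 ∧ y.2 ≤ x.2 + n := by
  simp only [rh, mem_ofPred_eq, Prod.fst_sub, Prod.snd_sub]; omega

theorem self_mem_hex (x : V) (n : ℕ) : x ∈ hex x n := by simp [mem_hex]

theorem hex_mono (h : n ≤ N) : hex x n ⊆ hex x N := fun _ hy => le_trans hy h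

theorem hex_subset (h : nrm (x - y) + n ≤ N) : hex x n ⊆ hex y N := fun z hz =>
  (nrm_tri y x z).trans ((Nat.add_le_add_left hz _).trans h)

theorem ann_mono (h : n ≤ n') (h' : N' ≤ N) : ann x n' N' ⊆ ann x n N := fun _ hy =>
  ⟨h.trans hy.1, hy.2.trans h'⟩

theorem ann_subset_hex : ann x n N ⊆ hex x N := fun _ hy => hy.2

theorem hex_subset_rh : hex x n ⊆ rh x n := fun y hy => by
  rw [mem_hex, nrm_sub] at hy; rw [mem_rh]; omega

theorem rh_subset_hex : rh x n ⊆ hex x (2 * n) := fun y hy => by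
  rw [mem_rh] at hy; rw [mem_hex, nrm_sub]; omega

theorem rh_finite (x : V) (n : ℕ) : (rh x n).Finite :=
  ((finite_Icc (x.1 - n) (x.1 + n)).prod (finite_Icc (x.2 - n) (x.2 + n))).subset fun y hy => by
    rw [mem_rh] at hy; exact ⟨⟨hy.1, hy.2.1⟩, hy.2.2⟩

theorem hex_finite (x : V) (n : ℕ) : (hex x n).Finite := (rh_finite x n).subset hex_subset_rh

theorem ann_finite (x : V) (n N : ℕ) : (ann x n N).Finite := (hex_finite x N).subset ann_subset_hex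

theorem exists_hex_of_finite (h : A.Finite) (x : V) : ∃ n, A ⊆ hex x n :=
  let ⟨n, hn⟩ := (h.image fun y => nrm (y - x)).bddAbove
  ⟨n, fun z hz => hn ⟨z, hz, rfl⟩⟩

theorem nbr_finite (x : V) : {y | Adj x y}.Finite :=
  (hex_finite x 1).subset fun _ hy => (adj_iff_nrm.1 hy).le

theorem obd_finite (h : A.Finite) : (obd A).Finite :=
  (h.biUnion fun y _ => nbr_finite y).subset fun _ ⟨_, _, hy, hxy⟩ => mem_biUnion hy hxy.symm

theorem ibd_subset (A : Set V) : ibd A ⊆ A := fun _ h => h.1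

theorem ibd_compl (A : Set V) : ibd Aᶜ = obd A := by
  ext x; simp [ibd, obd]

theorem mem_ibd_hex : y ∈ ibd (hex x n) ↔ nrm (y - x) = n := by
  refine ⟨fun ⟨h1, z, h2, h3⟩ => ?_, fun h => ⟨h.le, ?_⟩⟩
  · have := h3.nrm_le x
    rw [mem_hex] at h1 h2; omega
  · obtain ⟨z, h1, h2⟩ := exists_farther x y
    exact ⟨z, by rw [mem_hex]; omega, h1⟩

theorem mem_obd_hex : y ∈ obd (hex x n) ↔ nrm (y - x) = n + 1 := by
  refine ⟨fun ⟨h1, z, h2, h3⟩ => ?_, fun h => ⟨by rw [mem_hex]; omega, ?_⟩⟩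
  · have := h3.symm.nrm_le x
    rw [mem_hex] at h1 h2; omega
  · obtain ⟨z, h1, h2⟩ := exists_closer h
    exact ⟨z, h2.le, h1.symm⟩

/-! ### Connections -/

theorem both_symm (S : Set V) (a b : V) (h : both S a b) : both S b a := ⟨h.2, h.1⟩

theorem star_symm (S : Set V) (a b : V) (h : star S a b) : star S b a := Or.symm h

theorem both_mono (h : S ⊆ S') (a b : V) (hab : both S a b) : both S' a b := ⟨h hab.1, h hab.2⟩

theorem star_mono (h : S ⊆ S') (a b : V) (hab : star S a b) : star S' a b :=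
  hab.imp (@h a) (@h b)

theorem not_star_compl : ¬ star Sᶜ a b ↔ both S a b := by simp [star, both]

theorem not_both_compl : ¬ both Sᶜ a b ↔ star S a b := by
  simp only [star, both, mem_compl_iff]; tauto

theorem Conn.rfl : Conn E A a a := Relation.ReflTransGen.refl

theorem Conn.single (h : Adj a b) (hE : E a b) (ha : a ∈ A) (hb : b ∈ A) : Conn E A a b :=
  Relation.ReflTransGen.single ⟨h, hE, ha, hb⟩

theorem Conn.trans (h : Conn E A a b) (h' : Conn E A b c) : Conn E A a c :=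
  Relation.ReflTransGen.trans h h'

theorem Conn.tail (h : Conn E A a b) (h' : Adj b c) (hE : E b c) (hb : b ∈ A) (hc : c ∈ A) :
    Conn E A a c := h.trans (.single h' hE hb hc)

theorem Conn.head (h' : Adj a b) (hE : E a b) (ha : a ∈ A) (hb : b ∈ A) (h : Conn E A b c) :
    Conn E A a c := (Conn.single h' hE ha hb).trans h

/-- Induction along a connection. -/
theorem Conn.ind {P : V → Prop} (h : Conn E A a b) (h0 : P a)
    (hs : ∀ u v, Conn E A a u → Adj u v → E u v → u ∈ A → v ∈ A → P u → P v) : P b := by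
  induction h with
  | refl => exact h0
  | tail h1 h2 ih => exact hs _ _ h1 h2.1 h2.2.1 h2.2.2.1 h2.2.2.2 ih

theorem Conn.mono' (h : Conn E A a b)
    (hE : ∀ u v, Adj u v → E u v → u ∈ A → v ∈ A → E' u v ∧ u ∈ A' ∧ v ∈ A') : Conn E' A' a b :=
  h.ind (P := Conn E' A' a) .rfl fun u v _ h1 h2 h3 h4 ih =>
    let k := hE u v h1 h2 h3 h4
    ih.tail h1 k.1 k.2.1 k.2.2

theorem Conn.mono (h : Conn E A a b) (hE : ∀ u v, E u v → E' u v) (hA : A ⊆ A') :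
    Conn E' A' a b := h.mono' fun u v _ h1 h2 h3 => ⟨hE u v h1, hA h2, hA h3⟩

theorem Conn.monoA (h : Conn E A a b) (hA : A ⊆ A') : Conn E A' a b := h.mono (fun _ _ => id) hA

theorem Conn.symm (hE : ∀ u v, E u v → E v u) (h : Conn E A a b) : Conn E A b a :=
  h.ind (P := fun b => Conn E A b a) .rfl fun u v _ h1 h2 h3 h4 ih => .head h1.symm (hE u v h2) h4 h3 ih

theorem Conn.mem (h : Conn E A a b) (ha : a ∈ A) : b ∈ A :=
  h.ind (P := (· ∈ A)) ha fun _ _ _ _ _ _ h _ => h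

theorem Conn.eq_or_mem (h : Conn E A a b) : a = b ∨ (a ∈ A ∧ b ∈ A) :=
  h.ind (P := fun b => a = b ∨ (a ∈ A ∧ b ∈ A)) (Or.inl (Eq.refl a)) fun _ _ _ _ _ hu hv ih =>
    Or.inr ⟨ih.elim (fun e => e ▸ hu) And.left, hv⟩

/-- The connection stays inside the cluster of its starting point. -/
theorem Conn.cluster (h : Conn E A a b) : Conn E (A ∩ {y | Conn E A a y}) a b :=
  h.ind (P := Conn E (A ∩ {y | Conn E A a y}) a) .rfl fun _ _ h0 h1 h2 h3 h4 ih =>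
    ih.tail h1 h2 ⟨h3, h0⟩ ⟨h4, h0.tail h1 h2 h3 h4⟩

theorem conn_both_iff : Conn (both S) A a b ↔ Conn (fun _ _ => True) (A ∩ S) a b :=
  ⟨fun h => h.mono' fun _ _ _ h1 h2 h3 => ⟨trivial, ⟨h2, h1.1⟩, h3, h1.2⟩,
    fun h => h.mono' fun _ _ _ _ h2 h3 => ⟨⟨h2.2, h3.2⟩, h2.1, h3.1⟩⟩

theorem Conn.both_mem (h : Conn (both S) A a b) (ha : a ∈ S) : b ∈ S :=
  h.ind (P := (· ∈ S)) ha fun _ _ _ _ h _ _ _ => h.2

/-- First exit from `B`. -/
theorem Conn.exit (h : Conn E A a b) (ha : a ∈ B) (hb : b ∉ B) :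
    ∃ u v, Conn E (A ∩ B) a u ∧ Adj u v ∧ E u v ∧ u ∈ A ∧ u ∈ B ∧ v ∈ A ∧ v ∉ B ∧
      Conn E A v b := by
  have key : (b ∈ B ∧ Conn E (A ∩ B) a b) ∨ ∃ u v, Conn E (A ∩ B) a u ∧ Adj u v ∧ E u v ∧
      u ∈ A ∧ u ∈ B ∧ v ∈ A ∧ v ∉ B ∧ Conn E A v b := by
    refine h.ind (P := fun b => (b ∈ B ∧ Conn E (A ∩ B) a b) ∨ ∃ u v, Conn E (A ∩ B) a u ∧
      Adj u v ∧ E u v ∧ u ∈ A ∧ u ∈ B ∧ v ∈ A ∧ v ∉ B ∧ Conn E A v b) (Or.inl ⟨ha, .rfl⟩)
      fun u v _ h1 h2 h3 h4 ih => ?_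
    rcases ih with ⟨hu, ih⟩ | ⟨u', v', k1, k2, k3, k4, k5, k6, k7, k8⟩
    · by_cases hv : v ∈ B
      · exact Or.inl ⟨hv, ih.tail h1 h2 ⟨h3, hu⟩ ⟨h4, hv⟩⟩
      · exact Or.inr ⟨u, v, ih, h1, h2, h3, hu, h4, hv, .rfl⟩
    · exact Or.inr ⟨u', v', k1, k2, k3, k4, k5, k6, k7, k8.tail h1 h2 h3 h4⟩
  exact key.resolve_left fun h => hb h.1

/-- Last visit to `B`. -/
theorem Conn.last (h : Conn E A a b) (ha : a ∈ B) (hb : b ∉ B) :
    ∃ u v, Conn E A a u ∧ Adj u v ∧ E u v ∧ u ∈ A ∧ u ∈ B ∧ v ∈ A ∧ v ∉ B ∧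
      Conn E (A \ B) v b := by
  have key : b ∈ B ∨ (b ∉ B ∧ ∃ u v, Conn E A a u ∧ Adj u v ∧ E u v ∧
      u ∈ A ∧ u ∈ B ∧ v ∈ A ∧ v ∉ B ∧ Conn E (A \ B) v b) := by
    refine h.ind (P := fun b => b ∈ B ∨ (b ∉ B ∧ ∃ u v, Conn E A a u ∧ Adj u v ∧ E u v ∧
      u ∈ A ∧ u ∈ B ∧ v ∈ A ∧ v ∉ B ∧ Conn E (A \ B) v b)) (Or.inl ha)
      fun u v h0 h1 h2 h3 h4 ih => ?_
    by_cases hv : v ∈ B
    · exact Or.inl hv
    · rcases ih with hu | ⟨hu, u', v', k1, k2, k3, k4, k5, k6, k7, k8⟩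
      · exact Or.inr ⟨hv, u, v, h0, h1, h2, h3, hu, h4, hv, .rfl⟩
      · exact Or.inr ⟨hv, u', v', k1, k2, k3, k4, k5, k6, k7, k8.tail h1 h2 ⟨h3, hu⟩ ⟨h4, hv⟩⟩
  exact (key.resolve_left hb).2

/-- First visit to the level `t` of a function with unit steps. -/
theorem Conn.first {φ : V → ℤ} (hφ : ∀ u v, Adj u v → |φ u - φ v| ≤ 1) {t : ℤ}
    (h : Conn E A a b) (ha : φ a ≤ t) (hb : t ≤ φ b) :
    ∃ v, φ v = t ∧ Conn E (A ∩ {y | φ y ≤ t}) a v ∧ Conn E A v b := by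
  rcases ha.eq_or_lt with ha | ha
  · exact ⟨a, ha, .rfl, h⟩
  obtain ⟨u, v, k1, k2, k3, k4, k5, k6, k7, k8⟩ := h.exit (B := {y | φ y < t}) ha (not_lt.2 hb)
  have := abs_le.1 (hφ u v k2)
  simp only [mem_ofPred_eq] at k5 k7
  have hv : φ v = t := by omega
  have k9 : Conn E (A ∩ {y | φ y ≤ t}) a u :=
    k1.monoA fun y hy => ⟨hy.1, le_of_lt (show φ y < t from hy.2)⟩
  exact ⟨v, hv, k9.tail k2 k3 ⟨k4, k5.le⟩ ⟨k6, hv.le⟩, k8⟩

/-- Last visit to the level `s`. -/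
theorem Conn.final {φ : V → ℤ} (hφ : ∀ u v, Adj u v → |φ u - φ v| ≤ 1) {s : ℤ}
    (h : Conn E A a b) (ha : φ a ≤ s) (hb : s ≤ φ b) :
    ∃ u, φ u = s ∧ Conn E A a u ∧ Conn E (A ∩ {y | s ≤ φ y}) u b := by
  rcases hb.eq_or_lt with hb | hb
  · exact ⟨b, hb.symm, h, .rfl⟩
  obtain ⟨u, v, k1, k2, k3, k4, k5, k6, k7, k8⟩ := h.last (B := {y | φ y ≤ s}) ha (not_le.2 hb)
  have := abs_le.1 (hφ u v k2)
  simp only [mem_ofPred_eq] at k5 k7
  have hu : φ u = s := by omega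
  exact ⟨u, hu, k1, .head k2 k3 ⟨k4, hu.ge⟩ ⟨k6, (not_le.1 k7).le⟩
    (k8.monoA fun y hy => ⟨hy.1, (not_le.1 (show ¬ φ y ≤ s from hy.2)).le⟩)⟩

/-- A piece of a connection between two levels. -/
theorem Conn.between {φ : V → ℤ} (hφ : ∀ u v, Adj u v → |φ u - φ v| ≤ 1) {s t : ℤ} (hst : s ≤ t)
    (h : Conn E A a b) (ha : φ a ≤ s) (hb : t ≤ φ b) :
    ∃ u v, φ u = s ∧ φ v = t ∧ Conn E A a u ∧ Conn E (A ∩ {y | s ≤ φ y ∧ φ y ≤ t}) u v ∧
      Conn E A v b := by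
  obtain ⟨v, k1, k2, k3⟩ := h.first hφ (ha.trans hst) hb
  obtain ⟨u, k4, k5, k6⟩ := k2.final hφ ha (k1 ▸ hst)
  exact ⟨u, v, k4, k1, k5.monoA inter_subset_left, k6.monoA fun y hy => ⟨hy.1.1, hy.2, hy.1.2⟩, k3⟩

theorem lip_fst (u v : V) (h : Adj u v) : |u.1 - v.1| ≤ 1 := by
  rw [adj_iff] at h; rw [abs_le]; omega

theorem lip_snd (u v : V) (h : Adj u v) : |u.2 - v.2| ≤ 1 := by
  rw [adj_iff] at h; rw [abs_le]; omega

theorem lip_sum (u v : V) (h : Adj u v) : |(u.1 + u.2) - (v.1 + v.2)| ≤ 1 := by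
  rw [adj_iff] at h; rw [abs_le]; omega

theorem lip_neg {φ : V → ℤ} (hφ : ∀ u v, Adj u v → |φ u - φ v| ≤ 1) (u v : V) (h : Adj u v) :
    |-φ u - -φ v| ≤ 1 := by
  have := abs_le.1 (hφ u v h); rw [abs_le]; omega

/-- Lipschitz functions along geodesics. -/
theorem lip_nrm {φ : V → ℤ} (hφ : ∀ u v, Adj u v → |φ u - φ v| ≤ 1) (x y : V) :
    |φ x - φ y| ≤ nrm (y - x) := by
  generalize h : nrm (y - x) = n
  induction n generalizing y with
  | zero => rw [sub_eq_zero.1 (nrm_eq_zero.1 h)]; simp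
  | succ n ih =>
    obtain ⟨z, h1, h2⟩ := exists_closer h
    have := abs_le.1 (ih z h2)
    have := abs_le.1 (hφ z y h1)
    rw [abs_le]; push_cast; omega

/-- Hexagons are connected. -/
theorem conn_hex (h : y ∈ hex x n) : Conn (fun _ _ => True) (hex x n) x y := by
  generalize h' : nrm (y - x) = k
  induction k generalizing y with
  | zero => rw [sub_eq_zero.1 (nrm_eq_zero.1 h')]; exact .rfl
  | succ k ih =>
    obtain ⟨z, h1, h2⟩ := exists_closer h'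
    have hz : z ∈ hex x n := by rw [mem_hex] at h ⊢; omega
    exact (ih hz h2).tail h1 trivial hz h

theorem conn_univ (x y : V) : Conn (fun _ _ => True) univ x y :=
  (conn_hex (n := nrm (y - x)) (mem_hex.2 le_rfl)).monoA (subset_univ _)

/-- A horizontal segment. -/
theorem conn_row {i i' j : ℤ} (h : i ≤ i') (hA : ∀ k, i ≤ k → k ≤ i' → (k, j) ∈ A)
    (hE : ∀ k, i ≤ k → k < i' → E (k, j) (k + 1, j)) : Conn E A (i, j) (i', j) := by
  induction i', h using Int.leInduction with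
  | base => exact .rfl
  | succ k hk ih =>
    exact (ih (fun l h1 h2 => hA l h1 (by omega)) fun l h1 h2 => hE l h1 (by omega)).tail
      (by rw [adj_iff]; simp) (hE k hk (by omega)) (hA k hk (by omega)) (hA _ (by omega) le_rfl)

/-- A vertical segment. -/
theorem conn_col {i j j' : ℤ} (h : j ≤ j') (hA : ∀ k, j ≤ k → k ≤ j' → (i, k) ∈ A)
    (hE : ∀ k, j ≤ k → k < j' → E (i, k) (i, k + 1)) : Conn E A (i, j) (i, j') := by
  induction j', h using Int.leInduction with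
  | base => exact .rfl
  | succ k hk ih =>
    exact (ih (fun l h1 h2 => hA l h1 (by omega)) fun l h1 h2 => hE l h1 (by omega)).tail
      (by rw [adj_iff]; simp) (hE k hk (by omega)) (hA k hk (by omega)) (hA _ (by omega) le_rfl)

/-! ### Walks -/

theorem Conn.walk (h : Conn E A a b) (ha : a ∈ A) : ∃ (m : ℕ) (w : ℕ → V), w 0 = a ∧ w m = b ∧
    (∀ t < m, Adj (w t) (w (t + 1)) ∧ E (w t) (w (t + 1))) ∧ ∀ t ≤ m, w t ∈ A := by
  refine h.ind (P := fun b => ∃ (m : ℕ) (w : ℕ → V), w 0 = a ∧ w m = b ∧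
    (∀ t < m, Adj (w t) (w (t + 1)) ∧ E (w t) (w (t + 1))) ∧ ∀ t ≤ m, w t ∈ A)
    ⟨0, fun _ => a, Eq.refl _, Eq.refl _, fun t ht => absurd ht (by omega), fun _ _ => ha⟩ ?_
  rintro u v - h1 h2 - h4 ⟨m, w, k0, km, k1, k2⟩
  refine ⟨m + 1, fun t => if t ≤ m then w t else v, by simp [k0], by simp, fun t ht => ?_,
    fun t _ => ?_⟩
  · rcases Nat.lt_succ_iff_lt_or_eq.1 ht with ht | rfl
    · simpa only [if_pos ht.le, if_pos (Nat.succ_le_of_lt ht)] using k1 t ht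
    · simpa [km] using ⟨h1, h2⟩
  · dsimp only
    split_ifs with h
    exacts [k2 t h, h4]

theorem conn_of_walk {m : ℕ} {w : ℕ → V}
    (h1 : ∀ t < m, Adj (w t) (w (t + 1)) ∧ E (w t) (w (t + 1))) (h2 : ∀ t ≤ m, w t ∈ A) {s t : ℕ}
    (hst : s ≤ t) (ht : t ≤ m) : Conn E A (w s) (w t) := by
  induction t, hst using Nat.le_induction with
  | base => exact .rfl
  | succ t _ ih =>
    exact (ih (by omega)).tail (h1 t ht).1 (h1 t ht).2 (h2 t (by omega)) (h2 _ ht)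

/-! ### Symmetries -/

theorem IsSym.symm {g : V ≃ V} (hg : IsSym g) : IsSym g.symm := fun x y => by
  rw [← hg, g.apply_symm_apply, g.apply_symm_apply]

theorem IsSym.trans {g g' : V ≃ V} (hg : IsSym g) (hg' : IsSym g') : IsSym (g.trans g') :=
  fun x y => (hg' _ _).trans (hg x y)

theorem isSym_refl : IsSym (Equiv.refl V) := fun _ _ => Iff.rfl

theorem IsSym.nrm_le {g : V ≃ V} (hg : IsSym g) (x y : V) : nrm (g y - g x) ≤ nrm (y - x) := by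
  have := lip_nrm (φ := fun z => (nrm (g z - g x) : ℤ))
    (fun u v h => ((hg u v).2 h).nrm_lip _) x y
  simp only [sub_self, nrm_zero] at this
  have := abs_le.1 this
  omega

theorem IsSym.nrm_eq {g : V ≃ V} (hg : IsSym g) (x y : V) : nrm (g y - g x) = nrm (y - x) :=
  le_antisymm (hg.nrm_le x y) (by simpa using hg.symm.nrm_le (g x) (g y))

theorem Conn.map {g : V ≃ V} (hg : IsSym g) (h : Conn E A a b)
    (hE : ∀ u v, E u v → E' (g u) (g v)) (hA : ∀ u ∈ A, g u ∈ A') : Conn E' A' (g a) (g b) :=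
  h.ind (P := fun b => Conn E' A' (g a) (g b)) .rfl fun u v _ h1 h2 h3 h4 ih =>
    ih.tail ((hg u v).2 h1) (hE u v h2) (hA u h3) (hA v h4)

theorem Arm.map {g : V ≃ V} (hg : IsSym g) (h : Arm E x n N)
    (hE : ∀ u v, E u v → E' (g u) (g v)) : Arm E' (g x) n N :=
  let ⟨a, b, h1, h2, h3⟩ := h
  ⟨g a, g b, by rw [hg.nrm_eq, h1], by rw [hg.nrm_eq, h2],
    h3.map hg hE fun u hu => by rwa [mem_ann, hg.nrm_eq]⟩

/-! ### Arms -/

theorem arm_of_conn (h : Conn E A a b) (ha : nrm (a - x) ≤ n) (hn : n ≤ N)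
    (hb : N ≤ nrm (b - x)) : ∃ u v, nrm (u - x) = n ∧ nrm (v - x) = N ∧ Conn E A a u ∧
      Conn E (A ∩ ann x n N) u v ∧ Conn E A v b := by
  obtain ⟨u, v, h1, h2, h3, h4, h5⟩ := h.between (φ := fun z => (nrm (z - x) : ℤ))
    (fun u v h => h.nrm_lip x) (s := n) (t := N) (by omega) (by omega) (by omega)
  refine ⟨u, v, by omega, by omega, h3, h4.monoA fun y hy => ⟨hy.1, ?_⟩, h5⟩
  have := hy.2
  simp only [mem_ofPred_eq] at this
  rw [mem_ann]; omega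

theorem Conn.arm (h : Conn E A a b) (ha : nrm (a - x) ≤ n) (hn : n ≤ N) (hb : N ≤ nrm (b - x)) :
    Arm E x n N :=
  let ⟨u, v, h1, h2, _, h4, _⟩ := arm_of_conn h ha hn hb
  ⟨u, v, h1, h2, h4.monoA inter_subset_right⟩

theorem Arm.mono (h : Arm E x n N) (hE : ∀ u v, E u v → E' u v) (h1 : n ≤ n') (h2 : n' ≤ N')
    (h3 : N' ≤ N) : Arm E' x n' N' :=
  let ⟨_, _, k1, k2, k3⟩ := h
  (k3.mono hE Subset.rfl).arm (k1 ▸ h1) h2 (k2 ▸ h3)

/-- Change of centre. -/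
theorem Arm.shift (h : Arm E x n N) (h1 : nrm (x - y) + n ≤ n') (h2 : n' ≤ N')
    (h3 : N' + nrm (x - y) ≤ N) : Arm E y n' N' := by
  obtain ⟨a, b, k1, k2, k3⟩ := h
  have := nrm_tri y x a
  have := nrm_tri x y b
  rw [nrm_sub_comm y x] at this
  exact k3.arm (by omega) h2 (by omega)

theorem Circ.mono (h : Circ E x n N) (hE : ∀ u v, E u v → E' u v) (h1 : n' ≤ n) (h2 : N ≤ N') :
    Circ E' x n' N' :=
  let ⟨m, w, k1, k2, k3, k4⟩ := h
  ⟨m, w, k1, fun t ht => ⟨(k2 t ht).1, hE _ _ (k2 t ht).2⟩, fun t ht => ann_mono h1 h2 (k3 t ht),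
    k4⟩

end Vale.Agent.P153
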