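import Vale.Agent.P153.Planar.Basic

/-! Winding numbers modulo two of lattice walks round vertices and faces. -/

open Set

namespace Vale.Agent.P153

variable {w : ℕ → V} {m n N : ℕ} {a b x y z u v : V} {A : Set V} {E : V → V → Prop}

open Classical in
/-- Number of steps of the walk with the property `p`. -/
noncomputable def cnt (p : V → V → Prop) (w : ℕ → V) (m : ℕ) : ℕ :=
  ((Finset.range m).filter fun t => p (w t) (w (t + 1))).card

theorem wind_eq_cnt (w : ℕ → V) (m : ℕ) (x : V) : wind w m x = cnt (crossR x) w m := rfl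

theorem cnt_zero (p : V → V → Prop) (w : ℕ → V) : cnt p w 0 = 0 := by simp [cnt]

theorem odd_cnt_succ (p : V → V → Prop) (w : ℕ → V) (m : ℕ) :
    Odd (cnt p w (m + 1)) ↔ (Odd (cnt p w m) ↔ ¬ p (w m) (w (m + 1))) := by
  classical
  unfold cnt
  rw [Finset.range_add_one, Finset.filter_insert]
  split_ifs with h
  · rw [Finset.card_insert_of_notMem (by simp), Nat.odd_add_one]
    tauto
  · tauto

theorem iff_step {P Q p q g0 g1 g2 : Prop} (h1 : (P ↔ Q) ↔ (g0 ↔ g1))
    (h2 : (p ↔ q) ↔ (g1 ↔ g2)) : ((P ↔ ¬ p) ↔ (Q ↔ ¬ q)) ↔ (g0 ↔ g2) := by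
  by_cases P <;> by_cases Q <;> by_cases p <;> by_cases q <;> by_cases g0 <;> by_cases g1 <;>
    simp_all

/-- Two counts that differ by a coboundary. -/
theorem odd_cnt_iff {p q : V → V → Prop} {g : V → Prop}
    (h : ∀ t < m, (p (w t) (w (t + 1)) ↔ q (w t) (w (t + 1))) ↔ (g (w t) ↔ g (w (t + 1)))) :
    (Odd (cnt p w m) ↔ Odd (cnt q w m)) ↔ (g (w 0) ↔ g (w m)) := by
  induction m with
  | zero => simp [cnt_zero]
  | succ m ih =>
    rw [odd_cnt_succ, odd_cnt_succ]
    exact iff_step (ih fun t ht => h t (by omega)) (h m (by omega))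

theorem cnt_eq_zero {p : V → V → Prop} (h : ∀ t < m, ¬ p (w t) (w (t + 1))) : cnt p w m = 0 := by
  classical
  unfold cnt
  rw [Finset.card_eq_zero, Finset.filter_eq_empty_iff]
  exact fun t ht => h t (Finset.mem_range.1 ht)

theorem cnt_congr {p q : V → V → Prop} {w' : ℕ → V}
    (h : ∀ t < m, p (w t) (w (t + 1)) ↔ q (w' t) (w' (t + 1))) : cnt p w m = cnt q w' m := by
  classical
  unfold cnt
  congr 1
  exact Finset.filter_congr fun t ht => h t (Finset.mem_range.1 ht)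

/-! ### Vertices -/

/-- The step `x y` crosses the ray going left from `a` (pushed slightly down). -/
def cutL (x y a : V) : Prop :=
  (y.2 = x.2 + 1 ∧ a.2 = y.2 ∧ y.1 < a.1) ∨ (x.2 = y.2 + 1 ∧ a.2 = x.2 ∧ x.1 < a.1)

/-- Symmetric statements about edges need only three directions. -/
theorem adj_wlog {P : V → V → Prop} (hs : ∀ a b, P a b → P b a)
    (h1 : ∀ i j : ℤ, P (i, j) (i + 1, j)) (h2 : ∀ i j : ℤ, P (i, j) (i, j + 1))
    (h3 : ∀ i j : ℤ, P (i, j) (i - 1, j + 1)) (h : Adj a b) : P a b := by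
  obtain ⟨i, j⟩ := a
  obtain ⟨k, l⟩ := b
  rw [adj_iff] at h
  dsimp only at h
  rcases h with ⟨rfl, rfl⟩ | ⟨h, rfl⟩ | ⟨rfl, rfl⟩ | ⟨rfl, h⟩ | ⟨rfl, rfl⟩ | ⟨h, h'⟩
  · exact h1 _ _
  · obtain rfl : i = k + 1 := by omega
    exact hs _ _ (h1 _ _)
  · exact h2 _ _
  · obtain rfl : j = l + 1 := by omega
    exact hs _ _ (h2 _ _)
  · exact h3 _ _
  · obtain rfl : i = k - 1 := by omega
    obtain rfl : j = l + 1 := by omega
    exact hs _ _ (h3 _ _)

theorem cutL_comm (x y a : V) : cutL x y a ↔ cutL y x a := or_comm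

theorem crossR_comm (x a b : V) : crossR x a b ↔ crossR x b a := or_comm

theorem crossR_step (hxy : Adj x y) (hab : Adj a b) : a ≠ x → a ≠ y → b ≠ x → b ≠ y →
    ((crossR x a b ↔ crossR y a b) ↔ (cutL x y a ↔ cutL x y b)) := by
  let P : V → V → V → V → Prop := fun x y a b => a ≠ x → a ≠ y → b ≠ x → b ≠ y →
    ((crossR x a b ↔ crossR y a b) ↔ (cutL x y a ↔ cutL x y b))
  have k : ∀ x y, (∀ i j : ℤ, P x y (i, j) (i + 1, j)) → (∀ i j : ℤ, P x y (i, j) (i, j + 1)) →
      (∀ i j : ℤ, P x y (i, j) (i - 1, j + 1)) → P x y a b := fun x y h1 h2 h3 =>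
    adj_wlog (fun a b h k1 k2 k3 k4 => by
      rw [crossR_comm x, crossR_comm y, @iff_comm (cutL x y b)]
      exact h k3 k4 k1 k2) h1 h2 h3 hab
  refine adj_wlog (P := fun x y => P x y a b) (fun x y h k1 k2 k3 k4 => ?_) (fun i j => ?_)
    (fun i j => ?_) (fun i j => ?_) hxy
  · rw [cutL_comm y, cutL_comm y, @iff_comm (crossR y a b)]
    exact h k2 k1 k4 k3
  all_goals
    refine k _ _ ?_ ?_ ?_ <;> intro k l <;> simp only [P, crossR, cutL, ne_eq, Prod.ext_iff] <;>
    (rcases (by omega : l = j ∨ l = j + 1 ∨ l + 1 = j ∨ (l ≠ j ∧ l ≠ j + 1 ∧ l + 1 ≠ j)) with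
      rfl | rfl | rfl | ⟨h1, h2, h3⟩) <;> simp [*] <;> omega

/-- Moving the base point along an edge that avoids the walk. -/
theorem wind_adj (hw : ∀ t < m, Adj (w t) (w (t + 1))) (hxy : Adj x y) (hx : ∀ t ≤ m, w t ≠ x)
    (hy : ∀ t ≤ m, w t ≠ y) :
    (Odd (wind w m x) ↔ Odd (wind w m y)) ↔ (cutL x y (w 0) ↔ cutL x y (w m)) :=
  odd_cnt_iff fun t ht =>
    crossR_step hxy (hw t ht) (hx t ht.le) (hy t ht.le) (hx _ ht) (hy _ ht)

theorem wind_conn' (hw : ∀ t < m, Adj (w t) (w (t + 1))) (hA : ∀ t ≤ m, w t ∉ A)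
    (hc : ∀ x ∈ A, ∀ y ∈ A, Adj x y → (cutL x y (w 0) ↔ cutL x y (w m))) (h : Conn E A x y) :
    Odd (wind w m x) ↔ Odd (wind w m y) :=
  h.ind (P := fun y => Odd (wind w m x) ↔ Odd (wind w m y)) Iff.rfl fun u v _ h1 _ h3 h4 ih =>
    ih.trans ((wind_adj hw h1 (fun t ht e => hA t ht (e ▸ h3)) fun t ht e => hA t ht (e ▸ h4)).2
      (hc u h3 v h4 h1))

/-- Connections avoiding a closed walk keep the winding number modulo two. -/
theorem wind_conn (hw : ∀ t < m, Adj (w t) (w (t + 1))) (hc : w m = w 0) (hA : ∀ t ≤ m, w t ∉ A)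
    (h : Conn E A x y) : Odd (wind w m x) ↔ Odd (wind w m y) :=
  wind_conn' hw hA (fun _ _ _ _ _ => by rw [hc]) h

theorem wind_eq_zero (h : ∀ t ≤ m, (w t).2 = x.2 → (w t).1 ≤ x.1) : wind w m x = 0 :=
  cnt_eq_zero fun t ht => by
    have h1 := h t ht.le
    have h2 := h (t + 1) ht
    unfold crossR
    omega

theorem wind_all (hw : ∀ t < m, Adj (w t) (w (t + 1)))
    (h : ∀ t ≤ m, (w t).2 = x.2 → x.1 < (w t).1) :
    Odd (wind w m x) ↔ ¬ ((w 0).2 ≤ x.2 ↔ (w m).2 ≤ x.2) := by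
  have h1 := odd_cnt_iff (p := crossR x) (q := fun _ _ => False) (g := fun a => a.2 ≤ x.2)
    (w := w) (m := m) fun t ht => by
      have h1 := h t ht.le
      have h2 := h (t + 1) ht
      have h3 := adj_iff.1 (hw t ht)
      unfold crossR
      simp only [iff_false]
      omega
  rw [cnt_eq_zero (p := fun _ _ => False) fun _ _ => not_false] at h1
  rw [wind_eq_cnt]
  have h0 : ¬ Odd 0 := Nat.not_odd_zero
  tauto

/-- Far from a closed walk the winding number is even. -/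
theorem wind_far (hw : ∀ t < m, Adj (w t) (w (t + 1))) (hc : w m = w 0)
    (h : ∀ t ≤ m, w t ∈ hex z n) (hx : x ∉ hex z n) : ¬ Odd (wind w m x) := by
  by_cases h1 : ∀ t ≤ m, (w t).2 = x.2 → (w t).1 ≤ x.1
  · rw [wind_eq_zero h1]; simp
  · rw [wind_all hw, hc]
    · simp
    · intro t ht e
      simp only [not_forall, not_le] at h1
      obtain ⟨s, hs, e', h2⟩ := h1
      have k1 := nrm_sub_le_iff.1 (h t ht)
      have k2 := nrm_sub_le_iff.1 (h s hs)
      rw [mem_hex, nrm_sub_le_iff] at hx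
      omega

/-! ### Faces -/

/-- The next neighbour of `v` after `a` in the positive sense. -/
def nxt (v a : V) : V := (v.1 - (a.2 - v.2), v.2 + (a.1 - v.1) + (a.2 - v.2))

/-- The edge `a b` crosses the ray going right from the face with vertex sum `s`. -/
def crossT (s a b : V) : Prop :=
  ((a.2 = s.2 / 3 ∧ b.2 = s.2 / 3 + 1) ∨ (b.2 = s.2 / 3 ∧ a.2 = s.2 / 3 + 1)) ∧
    2 * s.1 / 3 < a.1 + b.1

/-- The face to the left of the step from `v` to `a` has odd winding number. -/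
def lft (w : ℕ → V) (m : ℕ) (v a : V) : Prop := Odd (cnt (crossT (v + a + nxt v a)) w m)

theorem Adj.nxt (h : Adj v a) : Adj v (nxt v a) := by
  rw [adj_iff] at *; unfold P153.nxt; dsimp only; omega

theorem Adj.nxt' (h : Adj v a) : Adj a (P153.nxt v a) := by
  rw [adj_iff] at *; unfold P153.nxt; dsimp only; omega

theorem nxt_nxt (v a : V) : nxt a (nxt v a) = v := by
  unfold nxt; ext <;> dsimp only <;> omega

theorem nxt_six (v a : V) : nxt v (nxt v (nxt v (nxt v (nxt v (nxt v a))))) = a := by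
  unfold nxt; ext <;> dsimp only <;> omega

theorem nxt_rev (v a : V) : nxt v (nxt a v) = a := by
  unfold nxt; ext <;> dsimp only <;> omega

theorem nxt_cases (h : Adj v a) (h' : Adj v b) : b = a ∨ b = nxt v a ∨ b = nxt v (nxt v a) ∨
    b = nxt v (nxt v (nxt v a)) ∨ a = nxt v (nxt v b) ∨ a = nxt v b := by
  rw [adj_iff] at *
  simp only [nxt, Prod.ext_iff]
  rcases h with h | h | h | h | h | h <;> rcases h' with k | k | k | k | k | k <;>
    simp [h.1, h.2, k.1, k.2] <;> omega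

theorem tri_cases (h : Adj v a) (h' : Adj v b) (h'' : Adj a b) : b = nxt v a ∨ a = nxt v b := by
  rw [adj_iff] at *; simp only [nxt, Prod.ext_iff]; omega

theorem lft_rot (w : ℕ → V) (m : ℕ) (v a : V) : lft w m a (nxt v a) ↔ lft w m v a := by
  unfold lft
  rw [nxt_nxt, show a + nxt v a + v = v + a + nxt v a by abel]

theorem lft_up (hw : ∀ t < m, Adj (w t) (w (t + 1))) (x : V) :
    lft w m x (x.1 + 1, x.2) ↔ Odd (wind w m x) := by
  rw [lft, wind_eq_cnt, cnt_congr (w' := w) fun t ht => ?_]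
  have := adj_iff.1 (hw t ht)
  simp only [crossT, crossR, nxt, Prod.fst_add, Prod.snd_add]
  omega

/-- The horizontal edge `u v` lies to the left of `a`. -/
def rayL (u v a : V) : Prop := u.2 = a.2 ∧ v.2 = a.2 ∧ u.1 ≤ a.1 ∧ v.1 ≤ a.1

theorem rayL_comm (u v a : V) : rayL u v a ↔ rayL v u a := by
  unfold rayL; tauto

theorem crossT_comm (s a b : V) : crossT s a b ↔ crossT s b a := by
  unfold crossT; omega

theorem crossT_iff {s : V} (r c : ℤ) (h1 : s.2 / 3 = r) (h2 : 2 * s.1 / 3 = c) :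
    crossT s a b ↔ ((a.2 = r ∧ b.2 = r + 1) ∨ (b.2 = r ∧ a.2 = r + 1)) ∧ c < a.1 + b.1 := by
  rw [crossT, h1, h2]

theorem crossT_step (huv : Adj u v) (hab : Adj a b) :
    (crossT (u + v + nxt u v) a b ↔ crossT (v + u + nxt v u) a b) ↔
      ((rayL u v a ↔ rayL u v b) ↔ ¬ ((a = u ∧ b = v) ∨ (a = v ∧ b = u))) := by
  let P : V → V → V → V → Prop := fun u v a b =>
    (crossT (u + v + nxt u v) a b ↔ crossT (v + u + nxt v u) a b) ↔
      ((rayL u v a ↔ rayL u v b) ↔ ¬ ((a = u ∧ b = v) ∨ (a = v ∧ b = u)))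
  have k : ∀ x y, (∀ i j : ℤ, P x y (i, j) (i + 1, j)) → (∀ i j : ℤ, P x y (i, j) (i, j + 1)) →
      (∀ i j : ℤ, P x y (i, j) (i - 1, j + 1)) → P x y a b := fun x y h1 h2 h3 =>
    adj_wlog (fun a b h => by
      simp only [P] at h ⊢
      rw [crossT_comm _ b, crossT_comm _ b, @iff_comm (rayL x y b), h, or_comm,
        @and_comm (b = y), @and_comm (b = x)]) h1 h2 h3 hab
  refine adj_wlog (P := fun x y => P x y a b) (fun x y h => ?_) (fun i j => ?_)
    (fun i j => ?_) (fun i j => ?_) huv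
  · simp only [P] at h ⊢
    rw [iff_comm (a := crossT _ _ _), h, or_comm, rayL_comm y, rayL_comm y]
  on_goal 1 =>
    have e1 := fun a b => crossT_iff (a := a) (b := b)
      (s := (i, j) + (i + 1, j) + nxt (i, j) (i + 1, j)) j (2 * i)
      (by simp [nxt]; omega) (by simp [nxt]; omega)
    have e2 := fun a b => crossT_iff (a := a) (b := b)
      (s := (i + 1, j) + (i, j) + nxt (i + 1, j) (i, j)) (j - 1) (2 * i + 1)
      (by simp [nxt]; omega) (by simp [nxt]; omega)
  on_goal 2 =>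
    have e1 := fun a b => crossT_iff (a := a) (b := b)
      (s := (i, j) + (i, j + 1) + nxt (i, j) (i, j + 1)) j (2 * i - 1)
      (by simp [nxt]; omega) (by simp [nxt]; omega)
    have e2 := fun a b => crossT_iff (a := a) (b := b)
      (s := (i, j + 1) + (i, j) + nxt (i, j + 1) (i, j)) j (2 * i)
      (by simp [nxt]; omega) (by simp [nxt]; omega)
  on_goal 3 =>
    have e1 := fun a b => crossT_iff (a := a) (b := b)
      (s := (i, j) + (i - 1, j + 1) + nxt (i, j) (i - 1, j + 1)) j (2 * i - 2)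
      (by simp [nxt]; omega) (by simp [nxt]; omega)
    have e2 := fun a b => crossT_iff (a := a) (b := b)
      (s := (i - 1, j + 1) + (i, j) + nxt (i - 1, j + 1) (i, j)) j (2 * i - 1)
      (by simp [nxt]; omega) (by simp [nxt]; omega)
  all_goals
    refine k _ _ ?_ ?_ ?_ <;> intro k l <;> simp only [P, e1, e2, rayL, Prod.ext_iff] <;>
    (rcases (by omega : l = j ∨ l = j + 1 ∨ l + 1 = j ∨ (l ≠ j ∧ l ≠ j + 1 ∧ l + 1 ≠ j)) with
      rfl | rfl | rfl | ⟨h1, h2, h3⟩) <;> simp [*] <;> omega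

/-- The two faces of an edge that the walk does not use. -/
theorem lft_swap' (hw : ∀ t < m, Adj (w t) (w (t + 1))) (huv : Adj u v)
    (h : ∀ t < m, ¬ ((w t = u ∧ w (t + 1) = v) ∨ (w t = v ∧ w (t + 1) = u))) :
    (lft w m u v ↔ lft w m v u) ↔ (rayL u v (w 0) ↔ rayL u v (w m)) :=
  odd_cnt_iff fun t ht => (crossT_step huv (hw t ht)).trans (by have := h t ht; tauto)

/-- A closed walk whose edges satisfy `E`. -/
structure Loop (E : V → V → Prop) (w : ℕ → V) (m : ℕ) : Prop where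
  closed : w m = w 0
  adj : ∀ t < m, Adj (w t) (w (t + 1))
  rel : ∀ t < m, E (w t) (w (t + 1))

theorem Loop.swap (L : Loop E w m) (huv : Adj u v) (h : ¬ E u v) (h' : ¬ E v u) :
    lft w m u v ↔ lft w m v u :=
  (lft_swap' L.adj huv fun t ht => by
    rintro (⟨rfl, rfl⟩ | ⟨rfl, rfl⟩)
    exacts [h (L.rel t ht), h' (L.rel t ht)]).2 (by rw [L.closed])

/-- Turning round `v` across an unused edge. -/
theorem Loop.turn (L : Loop E w m) (h : Adj v a) (h1 : ¬ E v (nxt v a)) (h2 : ¬ E (nxt v a) v) :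
    lft w m v a ↔ lft w m v (nxt v a) := by
  rw [L.swap h.nxt h1 h2, ← lft_rot w m v a, ← lft_rot w m a (nxt v a), nxt_nxt]

/-- Two edges at a vertex lie on the same side if the edges next to them are unused. -/
theorem Loop.six (L : Loop E w m) (ha : Adj v a) (hb : Adj v b)
    (h : ∀ z, Adj v z → z = a ∨ Adj a z ∨ z = b ∨ Adj b z → ¬ E v z ∧ ¬ E z v) :
    lft w m v a ↔ lft w m v b := by
  have t : ∀ c, Adj v c → (nxt v c = a ∨ Adj a (nxt v c) ∨ nxt v c = b ∨ Adj b (nxt v c)) →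
      (lft w m v c ↔ lft w m v (nxt v c)) := fun c hc h' =>
    L.turn hc (h _ hc.nxt h').1 (h _ hc.nxt h').2
  rcases nxt_cases ha hb with e | e | e | e | e | e
  · rw [e]
  · rw [t a ha (by tauto), e]
  · rw [t a ha (Or.inr (Or.inl ha.nxt')), t _ ha.nxt (by tauto), e]
  · rw [t a ha (Or.inr (Or.inl ha.nxt')),
      t _ ha.nxt (Or.inr (Or.inr (Or.inr (by rw [e]; exact ha.nxt.nxt.nxt'.symm)))),
      t _ ha.nxt.nxt (by tauto), e]
  · rw [t b hb (Or.inr (Or.inr (Or.inr hb.nxt'))), t _ hb.nxt (by tauto), ← e]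
  · rw [t b hb (by tauto), ← e]

/-- All faces at a vertex without used edges have the winding number of the vertex. -/
theorem Loop.at_vertex (L : Loop E w m) (ha : Adj v a) (h : ∀ z, Adj v z → ¬ E v z ∧ ¬ E z v) :
    lft w m v a ↔ Odd (wind w m v) := by
  rw [← lft_up L.adj]
  exact L.six ha (by rw [adj_iff]; simp) fun z hz _ => h z hz

end Vale.Agent.P153
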