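import Vale.Agent.P153.Planar.Timar

/-! Walks with a parity, existence of circuits, circuits block paths. -/

open Set

namespace Vale.Agent.P153

variable {a b c x y z : V} {A A' U S S' : Set V} {E E' p : V → V → Prop} {n N n' N' m : ℕ}
  {e e' : Prop} {w : ℕ → V}

/-- A walk from `a` to `b`; the number of its steps with `p` is odd exactly when `e` holds. -/
def OC (p E : V → V → Prop) (A : Set V) (a b : V) (e : Prop) : Prop :=
  ∃ (m : ℕ) (w : ℕ → V), w 0 = a ∧ w m = b ∧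
    (∀ t < m, Adj (w t) (w (t + 1)) ∧ E (w t) (w (t + 1))) ∧ (∀ t ≤ m, w t ∈ A) ∧
    (Odd (cnt p w m) ↔ e)

theorem OC.congr (h : OC p E A a b e) (he : e ↔ e') : OC p E A a b e' := propext he ▸ h

theorem OC.refl (ha : a ∈ A) : OC p E A a a False :=
  ⟨0, fun _ => a, rfl, rfl, fun _ h => absurd h (by omega), fun _ _ => ha, by simp [cnt_zero]⟩

theorem OC.mem_left (h : OC p E A a b e) : a ∈ A :=
  let ⟨_, _, h0, _, _, h1, _⟩ := h
  h0 ▸ h1 0 (Nat.zero_le _)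

theorem OC.mem_right (h : OC p E A a b e) : b ∈ A :=
  let ⟨m, _, _, h0, _, h1, _⟩ := h
  h0 ▸ h1 m le_rfl

theorem OC.conn (h : OC p E A a b e) : Conn E A a b :=
  let ⟨m, _, h0, h1, h2, h3, _⟩ := h
  h0 ▸ h1 ▸ conn_of_walk h2 h3 (Nat.zero_le m) le_rfl

theorem OC.mono (h : OC p E A a b e) (hE : ∀ u v, E u v → E' u v) (hA : A ⊆ A') :
    OC p E' A' a b e :=
  let ⟨m, w, h0, h1, h2, h3, h4⟩ := h
  ⟨m, w, h0, h1, fun t ht => ⟨(h2 t ht).1, hE _ _ (h2 t ht).2⟩, fun t ht => hA (h3 t ht), h4⟩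

theorem OC.tail (h : OC p E A a b e) (h1 : Adj b c) (h2 : E b c) (hc : c ∈ A) :
    OC p E A a c (e ↔ ¬ p b c) := by
  obtain ⟨m, w, k0, rfl, k2, k3, k4⟩ := h
  obtain ⟨w', e1, e2⟩ : ∃ w' : ℕ → V, (∀ t ≤ m, w' t = w t) ∧ w' (m + 1) = c :=
    ⟨fun t => if t ≤ m then w t else c, fun t ht => if_pos ht, if_neg (by omega)⟩
  refine ⟨m + 1, w', (e1 0 (by omega)).trans k0, e2, fun t ht => ?_, fun t ht => ?_, ?_⟩
  · rcases Nat.lt_succ_iff_lt_or_eq.1 ht with h | rfl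
    · rw [e1 t h.le, e1 (t + 1) h]; exact k2 t h
    · rw [e1 t le_rfl, e2]; exact ⟨h1, h2⟩
  · rcases Nat.le_succ_iff.1 ht with h | rfl
    · rw [e1 t h]; exact k3 t h
    · rw [e2]; exact hc
  · rw [odd_cnt_succ, e1 m le_rfl, e2, ← k4,
      cnt_congr (q := p) (w' := w) fun t ht => by rw [e1 t ht.le, e1 (t + 1) ht]]

theorem OC.single (h1 : Adj a b) (h2 : E a b) (ha : a ∈ A) (hb : b ∈ A) : OC p E A a b (p a b) :=
  ((OC.refl ha).tail h1 h2 hb).congr (by simp)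

/-- Induction along a walk with parity. -/
theorem OC.ind {P : V → Prop → Prop} (h : OC p E A a b e) (h0 : P a False)
    (hs : ∀ u v e, Adj u v → E u v → u ∈ A → v ∈ A → P u e → P v (e ↔ ¬ p u v)) : P b e := by
  obtain ⟨m, w, rfl, rfl, k2, k3, k4⟩ := h
  rw [← propext k4]
  clear k4
  induction m with
  | zero => simpa [cnt_zero] using h0
  | succ m ih =>
    rw [odd_cnt_succ]
    exact hs _ _ _ (k2 m (by omega)).1 (k2 m (by omega)).2 (k3 m (by omega)) (k3 _ le_rfl)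
      (ih (fun t ht => k2 t (by omega)) fun t ht => k3 t (by omega))

theorem OC.trans (h : OC p E A a b e) (h' : OC p E A b c e') : OC p E A a c (e ↔ ¬ e') :=
  h'.ind (P := fun c e' => OC p E A a c (e ↔ ¬ e')) (h.congr (by simp))
    fun _ _ _ h1 h2 _ h4 ih => (ih.tail h1 h2 h4).congr (by tauto)

theorem OC.symm (hp : ∀ u v, p u v → p v u) (hE : ∀ u v, E u v → E v u) (h : OC p E A a b e) :
    OC p E A b a e :=
  h.ind (P := fun b e => OC p E A b a e) (.refl h.mem_left) fun u v _ h1 h2 h3 h4 ih =>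
    ((OC.single h1.symm (hE u v h2) h4 h3).trans ih).congr (by
      have := hp u v; have := hp v u; tauto)

theorem Conn.oc (p : V → V → Prop) (h : Conn E A a b) (ha : a ∈ A) : ∃ e, OC p E A a b e :=
  let ⟨m, w, h0, h1, h2, h3⟩ := h.walk ha
  ⟨_, m, w, h0, h1, h2, h3, Iff.rfl⟩

/-- Along a walk a coboundary only counts the end points. -/
theorem OC.cobd {g : V → Prop} (h : OC p E A a b e)
    (hg : ∀ u v, Adj u v → E u v → u ∈ A → v ∈ A → (p u v ↔ ¬ (g u ↔ g v))) :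
    e ↔ ¬ (g a ↔ g b) :=
  h.ind (P := fun b e => e ↔ ¬ (g a ↔ g b)) (by simp) fun u v _ h1 h2 h3 h4 ih => by
    rw [ih, hg u v h1 h2 h3 h4]
    by_cases g a <;> by_cases g u <;> by_cases g v <;> simp [*]

/-- Without odd closed walks the set of edges is a coboundary. -/
theorem potential (hp : ∀ u v, p u v → p v u) (hE : ∀ u v, E u v → E v u)
    (h : ∀ a, ¬ OC p E A a a True) :
    ∃ g : V → Prop, ∀ u v, Adj u v → E u v → u ∈ A → v ∈ A → (p u v ↔ ¬ (g u ↔ g v)) := by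
  let r : V → V := fun a => Classical.epsilon fun z => z ∈ A ∧ Conn E A z a
  have k : ∀ {a b e}, OC p E A a b e → (OC p E A a b True ↔ e) := fun {a b e} h1 =>
    ⟨fun h2 => by_contra fun k => h b (((h1.symm hp hE).trans h2).congr (by simp [k])),
      fun k => h1.congr (by simp [k])⟩
  refine ⟨fun a => OC p E A (r a) a True, fun u v h1 h2 h3 h4 => ?_⟩
  have e1 : r v = r u := congrArg Classical.epsilon (funext fun z => propext (and_congr_right
    fun _ => ⟨fun k => k.tail h1.symm (hE u v h2) h4 h3, fun k => k.tail h1 h2 h3 h4⟩))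
  obtain ⟨k1, k2⟩ : r u ∈ A ∧ Conn E A (r u) u :=
    Classical.epsilon_spec (p := fun z => z ∈ A ∧ Conn E A z u) ⟨u, h3, .rfl⟩
  obtain ⟨e, k3⟩ := k2.oc p k1
  simp only [e1, k k3, k (k3.tail h1 h2 h4)]
  tauto

theorem circ_iff : Circ E x n N ↔ ∃ a, OC (crossR x) E (ann x n N) a a True :=
  ⟨fun ⟨m, w, h0, h1, h2, h3⟩ => ⟨w 0, m, w, rfl, h0, h1, h2, iff_true_intro h3⟩,
    fun ⟨_, m, w, h0, h1, h2, h3, h4⟩ => ⟨m, w, h1.trans h0.symm, h2, h3, h4.2 trivial⟩⟩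

theorem crossR_symm (x a b : V) (h : crossR x a b) : crossR x b a := Or.symm h

theorem crossR_tri (h1 : Adj a b) (h2 : Adj a c) (h3 : Adj b c) (ha : a ≠ x) (hb : b ≠ x)
    (hc : c ≠ x) : (crossR x a b ↔ crossR x a c) ↔ ¬ crossR x b c := by
  have key : ∀ a b : V, Adj a b → a ≠ x → b ≠ x → nxt a b ≠ x →
      ((crossR x a b ↔ crossR x a (nxt a b)) ↔ ¬ crossR x b (nxt a b)) := by
    rintro ⟨i, j⟩ ⟨k, l⟩ h
    obtain ⟨x1, x2⟩ := x
    rw [adj_iff] at h
    dsimp only at h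
    rcases h with ⟨rfl, rfl⟩ | ⟨rfl, rfl⟩ | ⟨rfl, rfl⟩ | ⟨rfl, rfl⟩ | ⟨rfl, rfl⟩ | ⟨rfl, rfl⟩ <;>
      simp [crossR, nxt] <;> omega
  rcases tri_cases h1 h2 h3 with rfl | rfl
  · exact key a b h1 ha hb hc
  · rw [iff_comm (a := crossR _ _ _), crossR_comm x (nxt a c)]
    exact key a c h2 ha hc hb

theorem no_potential (x : V) (n : ℕ) (f : V → Prop)
    (h : ∀ a b, Adj a b → a ∉ hex x n → b ∉ hex x n → (crossR x a b ↔ ¬ (f a ↔ f b))) : False := by
  have k : ∀ {a b}, Conn (fun a b => ¬ crossR x a b) (hex x n)ᶜ a b → (f a ↔ f b) := fun h' =>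
    h'.iff_of fun u v h1 h2 h3 h4 => not_not.1 fun k => h2 ((h u v h1 h3 h4).2 k)
  have c : ∀ {i j j'}, (i = x.1 - n - 1 ∨ i = x.1 + n + 1) → j ≤ j' →
      (i = x.1 - n - 1 ∨ j' ≤ x.2 ∨ x.2 < j) → (f (i, j) ↔ f (i, j')) := fun h1 h2 h3 =>
    k (conn_col h2 (fun _ _ _ => not_mem_hex.2 (by dsimp only; omega)) fun _ _ _ => by
      unfold crossR; dsimp only; omega)
  have r : ∀ {j}, (j = x.2 - n - 1 ∨ j = x.2 + n + 1) →
      (f (x.1 - n - 1, j) ↔ f (x.1 + n + 1, j)) := fun h1 =>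
    k (conn_row (by omega) (fun _ _ _ => not_mem_hex.2 (by dsimp only; omega)) fun _ _ _ => by
      unfold crossR; dsimp only; omega)
  refine (h (x.1 + n + 1, x.2) (x.1 + n + 1, x.2 + 1) (by simp [adj_iff])
    (not_mem_hex.2 (by dsimp only; omega)) (not_mem_hex.2 (by dsimp only; omega))).1
    (Or.inl ⟨rfl, rfl, by dsimp only; omega⟩) ?_
  rw [← c (j := x.2 - n - 1) (Or.inr rfl) (by omega) (by omega), ← r (Or.inl rfl),
    c (j' := x.2 + n + 1) (Or.inl rfl) (by omega) (Or.inl rfl), r (Or.inr rfl),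
    c (j := x.2 + 1) (j' := x.2 + n + 1) (Or.inr rfl) (by omega) (by omega)]

/-- A finite set is surrounded by a closed walk in its outer boundary. -/
theorem odd_loop (hU : U.Finite) (hx : x ∈ U) :
    ∃ a, OC (crossR x) (fun k k' => ∃ u ∈ U, Adj u k ∧ Adj u k') (obd U) a a True := by
  by_contra h
  obtain ⟨g, hg⟩ := potential (crossR_symm x) (fun _ _ ⟨u, h1, h2, h3⟩ => ⟨u, h1, h3, h2⟩)
    (not_exists.1 h)
  have e1 : ∀ u k k', u ∈ U → k ∉ U → k' ∉ U → Adj u k → Adj u k' → Adj k k' →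
      (crossR x k k' ↔ ¬ (g k ↔ g k')) := fun u k k' k1 k2 k3 k4 k5 k6 =>
    hg k k' k6 ⟨u, k1, k4, k5⟩ ⟨k2, u, k1, k4.symm⟩ ⟨k3, u, k1, k5.symm⟩
  obtain ⟨f, hf⟩ := poincare2
    (fun a b => (a ∉ U ∧ b ∉ U ∧ crossR x a b) ∨ (a ∈ U ∧ b ∉ U ∧ g b) ∨ (a ∉ U ∧ b ∈ U ∧ g a))
    (fun a b h => h.elim (fun k => Or.inl ⟨k.2.1, k.1, k.2.2.symm⟩) fun k => Or.inr
      (k.symm.imp (fun k => ⟨k.2.1, k.1, k.2.2⟩) fun k => ⟨k.2.1, k.1, k.2.2⟩))
    fun a b z k1 k2 k3 => by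
      by_cases ha : a ∈ U <;> by_cases hb : b ∈ U <;> by_cases hz : z ∈ U
      · simp [ha, hb, hz]
      · simp [ha, hb, hz]
      · simp [ha, hb, hz]
      · simp [ha, hb, hz, e1 a b z ha hb hz k1 k2 k3]
      · simp [ha, hb, hz]
      · by_cases g a <;> by_cases g z <;> simp [*, e1 b a z hb ha hz k1.symm k3 k2]
      · by_cases g a <;> by_cases g b <;> simp [*, e1 z a b hz ha hb k2.symm k3.symm k1]
      · simpa [ha, hb, hz] using crossR_tri k1 k2 k3 (fun e => ha (e ▸ hx)) (fun e => hb (e ▸ hx))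
          fun e => hz (e ▸ hx)
  obtain ⟨n, hn⟩ := exists_hex_of_finite hU x
  refine no_potential x n f fun a b h1 h2 h3 => ?_
  rw [← hf a b h1]
  simp [mt (@hn a) h2, mt (@hn b) h3]

/-- The same in the inner boundary. -/
theorem odd_loop_ibd (hU : U.Finite) (hx : x ∈ U) (hx' : x ∉ ibd U) :
    ∃ a, OC (crossR x) (fun _ _ => True) (ibd U) a a True :=
  let ⟨a, h⟩ := odd_loop (hU.subset (sdiff_subset (t := ibd U))) ⟨hx, hx'⟩
  ⟨a, h.mono (fun _ _ _ => trivial) fun k ⟨h1, _, h2, h3⟩ => by_contra fun h4 =>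
    h1 ⟨by_contra fun h5 => h2.2 ⟨h2.1, k, h5, h3.symm⟩, h4⟩⟩

theorem OC.both (h : OC p E A a b e) (hS : A ⊆ S) : OC p (both S) A a b e :=
  let ⟨m, w, h0, h1, h2, h3, h4⟩ := h
  ⟨m, w, h0, h1, fun t ht => ⟨(h2 t ht).1, hS (h3 t ht.le), hS (h3 _ ht)⟩, h3, h4⟩

theorem circ_of_obd (hU : U.Finite) (hx : x ∈ U) (h : obd U ⊆ S ∩ ann x n N) :
    Circ (both S) x n N :=
  let ⟨a, k⟩ := odd_loop hU hx
  circ_iff.2 ⟨a, (k.both fun _ k => (h k).1).mono (fun _ _ => id) fun _ k => (h k).2⟩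

theorem circ_of_ibd (hU : U.Finite) (hx : x ∈ U) (hx' : x ∉ ibd U) (h : ibd U ⊆ S ∩ ann x n N) :
    Circ (both S) x n N :=
  let ⟨a, k⟩ := odd_loop_ibd hU hx hx'
  circ_iff.2 ⟨a, (k.both fun _ k => (h k).1).mono (fun _ _ => id) fun _ k => (h k).2⟩

/-- Site duality in the annulus. -/
theorem circ_of_not_arm (hn : 1 ≤ n) (hN : n ≤ N) (h : ¬ Arm (both Sᶜ) x n N) :
    Circ (both S) x n N := by
  let U := {v | nrm (v - x) < n ∨
    ∃ a, nrm (a - x) = n ∧ a ∉ S ∧ Conn (both Sᶜ) (ann x n N) a v}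
  have h1 : ∀ v ∈ U, nrm (v - x) < N := by
    rintro v (k | ⟨a, k1, -, k3⟩)
    · omega
    · exact lt_of_not_ge fun k => h (k3.arm k1.le hN k)
  refine circ_of_obd (U := U) ((hex_finite x N).subset fun v k => (h1 v k).le)
    (Or.inl (by simp; omega)) ?_
  rintro k ⟨k1, u, k2, k3⟩
  have k4 := k3.symm.nrm_le x
  have k5 := h1 u k2
  have k6 : n ≤ nrm (k - x) := le_of_not_gt fun k => k1 (Or.inl k)
  have k7 : k ∈ ann x n N := ⟨k6, by omega⟩
  refine ⟨by_contra fun hk => k1 (Or.inr ?_), k7⟩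
  rcases k2 with k2 | ⟨a, l1, l2, l3⟩
  · exact ⟨k, by omega, hk, .rfl⟩
  · exact ⟨a, l1, l2, l3.tail k3.symm ⟨l3.both_mem l2, hk⟩ (l3.mem ⟨l1.ge, l1.le.trans hN⟩) k7⟩

theorem circ_of_not_arm_star (hn : 1 ≤ n) (hN : n ≤ N) (h : ¬ Arm (star Sᶜ) x n N) :
    Circ (both S) x n N :=
  circ_of_not_arm hn hN fun k => h (k.mono (fun _ _ k => Or.inl k.1) le_rfl hN le_rfl)

/-! ### Circuits block paths -/

theorem Circ.loop (h : Circ E x n N) : ∃ m w, Loop E w m ∧ (∀ t ≤ m, w t ∈ ann x n N) ∧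
    (∀ t ≤ m, ∃ z, Adj (w t) z ∧ (E (w t) z ∨ E z (w t))) ∧
    (∀ a, nrm (a - x) < n → Odd (wind w m a)) ∧ ∀ b, N < nrm (b - x) → ¬ Odd (wind w m b) := by
  obtain ⟨m, w, h0, h1, h2, h3⟩ := h
  have hw : ∀ t < m, Adj (w t) (w (t + 1)) := fun t ht => (h1 t ht).1
  refine ⟨m, w, ⟨h0, hw, fun t ht => (h1 t ht).2⟩, h2, fun t ht => ?_, fun a ha => ?_,
    fun b hb => wind_far hw h0 (fun t ht => (h2 t ht).2) (not_le.2 hb)⟩
  · rcases ht.eq_or_lt with rfl | ht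
    · rcases t with _ | t
      · simp [wind_eq_cnt, cnt_zero] at h3
      · exact ⟨_, (hw t (by omega)).symm, Or.inr (h1 t (by omega)).2⟩
    · exact ⟨_, hw t ht, Or.inl (h1 t ht).2⟩
  · exact (wind_conn hw h0 (A := hex x (nrm (a - x)))
      (fun t ht k => absurd ((h2 t ht).1.trans k) (not_le.2 ha)) (conn_hex (mem_hex.2 le_rfl))).1 h3

/-- Every path crossing the annulus has a vertex on the circuit. -/
theorem Circ.meet (h : Circ E x n N) (ha : nrm (a - x) < n) (hb : N < nrm (b - x))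
    (hc : Conn E' A a b) :
    ∃ v ∈ A, v ∈ ann x n N ∧ ∃ z, Adj v z ∧ (E v z ∨ E z v) := by
  obtain ⟨m, w, L, h1, h2, h3, h4⟩ := h.loop
  by_contra k
  exact h4 b hb ((wind_conn L.adj L.closed
    (fun t ht e => k ⟨w t, e, h1 t ht, h2 t ht⟩) hc).1 (h3 a ha))

theorem Circ.meet_both (h : Circ (both S) x n N) (ha : nrm (a - x) < n) (hb : N < nrm (b - x))
    (hc : Conn E A a b) : ∃ v ∈ A, v ∈ S ∧ v ∈ ann x n N :=
  let ⟨v, h1, h2, _, _, h3⟩ := h.meet ha hb hc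
  ⟨v, h1, h3.elim (·.1) (·.2), h2⟩

theorem Circ.not_conn_both (h : Circ (both S) x n N) (ha : nrm (a - x) < n) (hb : N < nrm (b - x))
    (hc : Conn (both Sᶜ) A a b) : False :=
  let ⟨_, h1, h2, _⟩ := h.meet_both ha hb (conn_both_iff.1 hc)
  h1.2 h2

/-- Site duality in the annulus, converse. -/
theorem Circ.not_arm (h : Circ (both S) x n N) (hn : 1 ≤ n) (hN : n < N) :
    ¬ Arm (both Sᶜ) x n N := by
  rintro ⟨a, b, h1, h2, h3⟩
  have h4 := (conn_both_iff.1 h3).eq_or_mem.resolve_left (by rintro rfl; omega)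
  obtain ⟨a', k1, k2⟩ := exists_closer (x := x) (y := a) (n := n - 1) (by omega)
  obtain ⟨b', k3, k4⟩ := exists_farther x b
  let A := Sᶜ ∪ (ann x n N)ᶜ
  have ha' : a' ∈ A := Or.inr fun k => by have := k.1; omega
  have hb' : b' ∈ A := Or.inr fun k => by have := k.2; omega
  obtain ⟨v, l1, l2, l3⟩ := h.meet_both (A := A) (E := fun _ _ => True) (by omega) (by omega)
    ((Conn.head k1 trivial ha' (Or.inl h4.1.2) ((conn_both_iff.1 h3).monoA
      fun _ k => Or.inl k.2)).tail k3 trivial (Or.inl h4.2.2) hb')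
  exact l1.elim (fun k => k l2) fun k => k l3

/-- Along edges touching `S'` the winding number of a loop touching `S` is constant. -/
theorem Loop.star_conn (L : Loop (star S) w m) (hd : Disjoint S S')
    (hS : ∀ u ∈ S, ∀ v ∈ S', ¬ Adj u v) (hc : Conn (star S') A a b)
    (ha : ∀ z, Adj a z → star S' a z → (lft w m a z ↔ e)) :
    ∀ z, Adj b z → star S' b z → (lft w m b z ↔ e) := by
  have ns : ∀ u v, Adj u v → star S' u v → ¬ star S u v := by
    rintro u v h (k | k) (l | l)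
    exacts [hd.notMem_of_mem_left l k, hS v l u k h.symm, hS u l v k h,
      hd.notMem_of_mem_left l k]
  refine hc.ind (P := fun b => ∀ z, Adj b z → star S' b z → (lft w m b z ↔ e)) ha
    fun u v _ h1 h2 _ _ ih z h3 h4 => ?_
  rw [← ih v h1 h2, L.swap h1 (ns u v h1 h2) fun k => ns u v h1 h2 k.symm]
  refine L.six h3 h1.symm fun y hy k => ?_
  suffices ¬ star S v y from ⟨this, fun k => this k.symm⟩
  by_cases hv : v ∈ S'
  · exact ns v y hy (Or.inl hv)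
  have hz : z ∈ S' := h4.resolve_left hv
  have hu : u ∈ S' := h2.resolve_right hv
  rintro (l | l)
  · exact hS v l u hu h1.symm
  · rcases k with rfl | k | rfl | k
    exacts [hd.notMem_of_mem_left l hz, hS y l z hz k.symm, hd.notMem_of_mem_left l hu,
      hS y l u hu k.symm]

theorem Loop.lft_of_not_mem (L : Loop E w m) (h : ∀ t ≤ m, w t ≠ a) (hz : Adj a z) :
    lft w m a z ↔ Odd (wind w m a) :=
  Loop.at_vertex (E := fun u v => u ≠ a ∧ v ≠ a)
    ⟨L.closed, L.adj, fun t ht => ⟨h t ht.le, h _ ht⟩⟩ hz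
    fun _ _ => ⟨fun k => k.1 rfl, fun k => k.2 rfl⟩

/-- A circuit of edges touching `S` blocks the paths of edges touching `S'` when the two sets are
at distance at least two. -/
theorem Circ.star_block (h : Circ (star S) x n N) (hd : Disjoint S S')
    (hS : ∀ u ∈ S, ∀ v ∈ S', ¬ Adj u v) (ha : nrm (a - x) < n) (hb : N < nrm (b - x))
    (hc : Conn (star S') A a b) : False := by
  obtain ⟨m, w, L, h1, -, h3, h4⟩ := h.loop
  have k := L.star_conn hd hS hc (e := True) fun z hz _ => iff_true_intro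
    ((L.lft_of_not_mem (fun t ht e => by have := (h1 t ht).1; rw [e] at this; omega) hz).2 (h3 a ha))
  obtain ⟨u, v, -, k1, k2, -, k3, -, k4, k5⟩ := hc.last (B := {b}ᶜ)
    (fun e => by
      have := h4 a (e ▸ hb)
      exact this (h3 a ha)) (not_not.2 rfl)
  obtain rfl : v = b := not_not.1 k4
  exact h4 v hb ((L.lft_of_not_mem
    (fun t ht e => by have := (h1 t ht).2; rw [e] at this; omega) k1.symm).1
    ((k u k1.symm k2.symm).2 trivial))

theorem Circ.ge_block {H : Cfg} {k : ℤ} (hH : Lip H) (h : Circ (star (ge (k + 2) H)) x n N)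
    (ha : nrm (a - x) < n) (hb : N < nrm (b - x)) : ¬ Conn (star (le k H)) A a b :=
  h.star_block (disjoint_left.2 fun u (h1 : k + 2 ≤ H u) (h2 : H u ≤ k) => by omega)
    (fun u (h1 : k + 2 ≤ H u) v (h2 : H v ≤ k) h3 => by have := abs_le.1 (hH u v h3); omega) ha hb

theorem Circ.le_block {H : Cfg} {k : ℤ} (hH : Lip H) (h : Circ (star (le k H)) x n N)
    (ha : nrm (a - x) < n) (hb : N < nrm (b - x)) : ¬ Conn (star (ge (k + 2) H)) A a b :=
  h.star_block (disjoint_left.2 fun u (h1 : H u ≤ k) (h2 : k + 2 ≤ H u) => by omega)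
    (fun u (h1 : H u ≤ k) v (h2 : k + 2 ≤ H v) h3 => by have := abs_le.1 (hH u v h3); omega) ha hb

end Vale.Agent.P153
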