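import Vale.Agent.P153.Planar.Wind

/-! Poincare lemma modulo two, connectedness of boundaries, clusters and components. -/

open Set

namespace Vale.Agent.P153

variable {a b x y z u v : V} {A U K O : Set V} {E E' : V → V → Prop} {r R : ℕ}

theorem int_prim (p : ℤ → Prop) (q : Prop) :
    ∃ F : ℤ → Prop, (F 0 ↔ q) ∧ ∀ n, p n ↔ ¬ (F n ↔ F (n + 1)) := by
  let A : ℕ → Prop := fun n => Nat.rec q (fun k s => (s ↔ ¬ p k)) n
  let B : ℕ → Prop := fun n => Nat.rec q (fun k s => (s ↔ ¬ p (Int.negSucc k))) n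
  refine ⟨fun n => Int.rec A (fun k => B (k + 1)) n, Iff.rfl, fun n => ?_⟩
  have h1 : ∀ p s : Prop, p ↔ ¬ (s ↔ (s ↔ ¬ p)) := fun _ _ => by tauto
  have h2 : ∀ p s : Prop, p ↔ ¬ ((s ↔ ¬ p) ↔ s) := fun _ _ => by tauto
  rcases n with k | _ | k
  exacts [h1 _ (A k), h2 _ q, h2 _ (B (k + 1))]

theorem iff_tri {p q s f g h : Prop} (h1 : (p ↔ q) ↔ ¬ s) (h2 : q ↔ ¬ (f ↔ h)) :
    (p ↔ ¬ (f ↔ g)) ↔ (s ↔ ¬ (g ↔ h)) := by
  by_cases p <;> by_cases q <;> by_cases s <;> by_cases f <;> by_cases g <;> simp_all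

/-- A symmetric set of edges meeting every triangle evenly is a cut. -/
theorem poincare2 (c : V → V → Prop) (hs : ∀ a b, c a b → c b a)
    (ht : ∀ a b z, Adj a b → Adj a z → Adj b z → ((c a b ↔ c a z) ↔ ¬ c b z)) :
    ∃ f : V → Prop, ∀ a b, Adj a b → (c a b ↔ ¬ (f a ↔ f b)) := by
  obtain ⟨F, -, hF⟩ := int_prim (fun i => c (i, 0) (i + 1, 0)) True
  choose G hG0 hG using fun i => int_prim (fun j => c (i, j) (i, j + 1)) (F i)
  have sy : ∀ a b, c a b ↔ c b a := fun a b => ⟨hs a b, hs b a⟩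
  have d1 : ∀ i j : ℤ, (c (i, j) (i + 1, j) ↔ ¬ (G i j ↔ G (i + 1) j)) ↔
      (c (i + 1, j) (i, j + 1) ↔ ¬ (G (i + 1) j ↔ G i (j + 1))) := fun i j =>
    iff_tri (ht _ _ _ (by simp [adj_iff]) (by simp [adj_iff]) (by simp [adj_iff])) (hG i j)
  have d2 : ∀ i j : ℤ, (c (i + 1, j) (i, j + 1) ↔ ¬ (G (i + 1) j ↔ G i (j + 1))) ↔
      (c (i, j + 1) (i + 1, j + 1) ↔ ¬ (G i (j + 1) ↔ G (i + 1) (j + 1))) := fun i j =>
    iff_tri (ht _ _ _ (by simp [adj_iff]) (by simp [adj_iff]) (by simp [adj_iff])) (hG (i + 1) j)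
  have hr : ∀ i j : ℤ, c (i, j) (i + 1, j) ↔ ¬ (G i j ↔ G (i + 1) j) := fun i j => by
    induction j using Int.induction_on with
    | zero => rw [hG0, hG0]; exact hF i
    | succ j ih => exact (d2 i j).1 ((d1 i j).1 ih)
    | pred j ih => exact (d1 _ _).2 ((d2 _ _).2 (by rwa [sub_add_cancel]))
  refine ⟨fun a => G a.1 a.2, fun a b h => adj_wlog (P := fun a b => c a b ↔ ¬ (G a.1 a.2 ↔
    G b.1 b.2)) (fun a b h => by rw [sy, h, @iff_comm (G a.1 a.2)]) hr hG (fun i j => ?_) h⟩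
  have := (d1 (i - 1) j).1 (hr _ _)
  rwa [sub_add_cancel] at this

/-- Connected sets of vertices. -/
def Cn (A : Set V) : Prop := ∀ a ∈ A, ∀ b ∈ A, Conn (fun _ _ => True) A a b

theorem Cn.of_base (h : ∀ a ∈ A, Conn E A x a) : Cn A := fun a ha b hb =>
  (((h a ha).mono (fun _ _ _ => trivial) Subset.rfl).symm fun _ _ => id).trans
    ((h b hb).mono (fun _ _ _ => trivial) Subset.rfl)

/-- A set all of whose points are joined inside it to a connected subset. -/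
theorem Cn.of_sub (hO : Cn O) (hA : O ⊆ A) (h : ∀ a ∈ A, ∃ o ∈ O, Conn E A o a) : Cn A :=
  fun a ha b hb =>
    let ⟨o, h1, h2⟩ := h a ha
    let ⟨o', h3, h4⟩ := h b hb
    (((h2.mono (fun _ _ _ => trivial) Subset.rfl).symm fun _ _ => id).trans
      ((hO o h1 o' h3).monoA hA)).trans (h4.mono (fun _ _ _ => trivial) Subset.rfl)

theorem Conn.iff_of {f : V → Prop} (h : Conn E A a b)
    (hf : ∀ u v, Adj u v → E u v → u ∈ A → v ∈ A → (f u ↔ f v)) : f a ↔ f b :=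
  h.ind (P := fun b => f a ↔ f b) Iff.rfl fun u v _ h1 h2 h3 h4 ih => ih.trans (hf u v h1 h2 h3 h4)

theorem cn_hex (x : V) (r : ℕ) : Cn (hex x r) := Cn.of_base fun _ h => conn_hex h

theorem cn_union_obd (h : Cn U) : Cn (U ∪ obd U) :=
  h.of_sub (E := fun _ _ => True) subset_union_left fun a ha =>
    ha.elim (fun k => ⟨a, k, .rfl⟩) fun ⟨k, u, k1, k2⟩ =>
      ⟨u, k1, .single k2.symm trivial (Or.inl k1) (Or.inr ⟨k, u, k1, k2⟩)⟩

/-- Induction along the boundary between two connected sets. -/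
theorem cut_ind (hU : Cn U) (hK : Cn Uᶜ) {P : V → V → Prop} (ha : a ∈ U) (hb : b ∉ U)
    (hab : Adj a b) (h0 : P a b)
    (h1 : ∀ u k k', u ∈ U → k ∉ U → k' ∉ U → Adj u k → Adj u k' → Adj k k' → P u k → P u k')
    (h2 : ∀ u u' k, u ∈ U → u' ∈ U → k ∉ U → Adj u k → Adj u' k → Adj u u' → P u k → P u' k)
    (hu : u ∈ U) (hv : v ∉ U) (huv : Adj u v) : P u v := by
  have e1 : ∀ u k k', u ∈ U → k ∉ U → k' ∉ U → Adj u k → Adj u k' → Adj k k' →
      (P u k ↔ P u k') := fun u k k' k1 k2 k3 k4 k5 k6 =>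
    ⟨h1 u k k' k1 k2 k3 k4 k5 k6, h1 u k' k k1 k3 k2 k5 k4 k6.symm⟩
  have e2 : ∀ u u' k, u ∈ U → u' ∈ U → k ∉ U → Adj u k → Adj u' k → Adj u u' →
      (P u k ↔ P u' k) := fun u u' k k1 k2 k3 k4 k5 k6 =>
    ⟨h2 u u' k k1 k2 k3 k4 k5 k6, h2 u' u k k2 k1 k3 k5 k4 k6.symm⟩
  obtain ⟨f, hf⟩ := poincare2 (fun a b => (a ∈ U ∧ b ∉ U ∧ P a b) ∨ (b ∈ U ∧ a ∉ U ∧ P b a))
    (fun _ _ => Or.symm) fun a b z k1 k2 k3 => by
      have := k1.symm; have := k2.symm; have := k3.symm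
      by_cases ha : a ∈ U <;> by_cases hb : b ∈ U <;> by_cases hz : z ∈ U <;>
        simp [ha, hb, hz, not_iff_not] <;>
        first | exact e1 _ _ _ ‹_› ‹_› ‹_› ‹_› ‹_› ‹_› | exact e2 _ _ _ ‹_› ‹_› ‹_› ‹_› ‹_› ‹_›
  have k1 : f a ↔ f u := (hU a ha u hu).iff_of fun p q h _ hp hq =>
    not_not.1 fun k => ((hf p q h).2 k).elim (fun k => k.2.1 hq) fun k => k.2.1 hp
  have k2 : f b ↔ f v := (hK b hb v hv).iff_of fun p q h _ hp hq =>
    not_not.1 fun k => ((hf p q h).2 k).elim (fun k => hp k.1) fun k => hq k.1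
  exact ((hf u v huv).2 fun h => (hf a b hab).1 (Or.inl ⟨ha, hb, h0⟩)
    (k1.trans (h.trans k2.symm))).elim (·.2.2) fun k => absurd k.1 hv

/-- Timar's lemma, inner boundary. -/
theorem cn_ibd (hU : Cn U) (hK : Cn Uᶜ) : Cn (ibd U) := fun _ ⟨h1, _, h2, h3⟩ _ ⟨h4, _, h5, h6⟩ =>
  cut_ind hU hK (P := fun u _ => Conn (fun _ _ => True) (ibd U) _ u) h1 h2 h3 .rfl
    (fun _ _ _ _ _ _ _ _ _ h => h) (fun _ _ k k1 k2 k3 k4 k5 k6 h =>
      h.tail k6 trivial ⟨k1, k, k3, k4⟩ ⟨k2, k, k3, k5⟩) h4 h5 h6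

/-- Timar's lemma, outer boundary. -/
theorem cn_obd (hU : Cn U) (hK : Cn Uᶜ) : Cn (obd U) :=
  ibd_compl U ▸ cn_ibd hK (by rwa [compl_compl])

theorem cn_bd (hU : Cn U) (hK : Cn Uᶜ) : Cn (ibd U ∪ obd U) :=
  (cn_ibd hU hK).of_sub (E := fun _ _ => True) subset_union_left fun a ha =>
    ha.elim (fun k => ⟨a, k, .rfl⟩) fun ⟨k, u, k1, k2⟩ => ⟨u, ⟨k1, a, k, k2.symm⟩,
      .single k2.symm trivial (Or.inl ⟨k1, a, k, k2.symm⟩) (Or.inr ⟨k, u, k1, k2⟩)⟩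

/-- On a connected set of constant spin the height stays in one band. -/
theorem band_of_cn {H : Cfg} {j : ℤ} (hH : Lip H) (hA : Cn A) (hs : A ⊆ sp j H) :
    ∃ k, (k - j) % 4 = 0 ∧ ∀ a ∈ A, H a = k ∨ H a = k + 1 := by
  rcases A.eq_empty_or_nonempty with rfl | ⟨a, ha⟩
  · exact ⟨j, by simp, by simp⟩
  refine ⟨H a - (H a - j) % 4, by omega, fun b hb => (hA a ha b hb).ind
    (P := fun b => H b = H a - (H a - j) % 4 ∨ H b = H a - (H a - j) % 4 + 1) ?_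
    fun u v _ h1 _ _ h4 ih => ?_⟩
  · have : _ ∨ _ := hs ha
    omega
  · have : _ ∨ _ := hs h4
    have := abs_le.1 (hH u v h1)
    omega

/-! ### Clusters and components -/

/-- The `E`-cluster of the set `O`. -/
def cl (E : V → V → Prop) (O : Set V) : Set V := {v | ∃ o ∈ O, Conn E univ o v}

/-- The component of `x` in `A` (empty if `x` is not in `A`). -/
def comp (A : Set V) (x : V) : Set V := {v | x ∈ A ∧ Conn (fun _ _ => True) A x v}

theorem subset_cl : O ⊆ cl E O := fun o h => ⟨o, h, .rfl⟩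

theorem cl_step (h : a ∈ cl E O) (hab : Adj a b) (hE : E a b) : b ∈ cl E O :=
  let ⟨o, h1, h2⟩ := h
  ⟨o, h1, h2.tail hab hE trivial trivial⟩

theorem cl_conn (h : a ∈ cl E O) : ∃ o ∈ O, Conn E (cl E O) o a :=
  let ⟨o, h1, h2⟩ := h
  ⟨o, h1, h2.cluster.monoA fun _ k => ⟨o, h1, k.2⟩⟩

theorem cl_cases (h : a ∈ cl E O) : a ∈ O ∨ ∃ b ∈ cl E O, Adj b a ∧ E b a :=
  let ⟨o, h1, h2⟩ := h
  h2.ind (P := fun a => a ∈ O ∨ ∃ b ∈ cl E O, Adj b a ∧ E b a) (Or.inl h1)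
    fun u _ k0 k1 k2 _ _ _ => Or.inr ⟨u, ⟨o, h1, k0⟩, k1, k2⟩

theorem cl_subset (hO : O ⊆ A) (h : ∀ a ∈ A, ∀ b, Adj a b → E a b → b ∈ A) : cl E O ⊆ A :=
  fun _ ⟨_, h1, h2⟩ => h2.ind (P := (· ∈ A)) (hO h1) fun u v _ k1 k2 _ _ ih => h u ih v k1 k2

theorem cl_mono {O' : Set V} (hE : ∀ a b, E a b → E' a b) (hO : O ⊆ O') : cl E O ⊆ cl E' O' :=
  cl_subset (hO.trans subset_cl) fun a ha b h1 h2 => cl_step ha h1 (hE a b h2)

theorem Cn.cl (h : Cn O) : Cn (cl E O) := h.of_sub subset_cl fun _ => cl_conn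

/-- The cluster only depends on the edges starting from it. -/
theorem cl_congr (h : ∀ a ∈ cl E O, ∀ b, Adj a b → (E a b ↔ E' a b)) : cl E' O = cl E O := by
  refine (cl_subset subset_cl fun a ha b h1 h2 => cl_step ha h1 ((h a ha b h1).2 h2)).antisymm ?_
  rintro a ⟨o, h1, h2⟩
  exact h2.ind (P := (· ∈ cl E' O)) (subset_cl h1) fun u v k0 k1 k2 _ _ ih =>
    cl_step ih k1 ((h u ⟨o, h1, k0⟩ v k1).1 k2)

theorem comp_subset : comp A x ⊆ A := fun _ h => h.2.mem h.1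

theorem self_mem_comp (h : x ∈ A) : x ∈ comp A x := ⟨h, .rfl⟩

theorem comp_step (h : a ∈ comp A x) (hab : Adj a b) (hb : b ∈ A) : b ∈ comp A x :=
  ⟨h.1, h.2.tail hab trivial (comp_subset h) hb⟩

theorem cn_comp (A : Set V) (x : V) : Cn (comp A x) :=
  Cn.of_base fun _ h => h.2.cluster.monoA fun _ k => ⟨h.1, k.2⟩

theorem Cn.subset_comp (h : Cn U) (hA : U ⊆ A) (hx : x ∈ U) : U ⊆ comp A x := fun a ha =>
  ⟨hA hx, (h x hx a ha).monoA hA⟩

theorem obd_comp : obd (comp A x) ⊆ obd A := fun _ ⟨h1, b, h2, h3⟩ =>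
  ⟨fun h => h1 (comp_step h2 h3.symm h), b, comp_subset h2, h3⟩

theorem ibd_comp : ibd (comp A x) ⊆ ibd A := fun _ ⟨h1, b, h2, h3⟩ =>
  ⟨comp_subset h1, b, fun h => h2 (comp_step h1 h3 h), h3⟩

/-- The complement of a component of the complement of a connected set is connected. -/
theorem cn_compl_comp (hK : Cn K) (hne : K.Nonempty) (x : V) : Cn (comp Kᶜ x)ᶜ := by
  obtain ⟨o, ho⟩ := hne
  refine hK.of_sub (E := fun _ _ => True) (fun a ha h => comp_subset h ha) fun a ha => ?_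
  by_cases h : a ∈ K
  · exact ⟨a, h, .rfl⟩
  obtain ⟨u, v, k1, k2, -, -, k3, -, k4, -⟩ := (conn_univ a o).exit (B := Kᶜ) h (not_not.2 ho)
  have k5 : ∀ z, Conn (fun _ _ => True) (univ ∩ Kᶜ) a z → z ∉ comp Kᶜ x := fun z hz k =>
    ha ⟨k.1, k.2.trans ((hz.monoA inter_subset_right).symm fun _ _ => id)⟩
  refine ⟨v, not_not.1 k4, .symm (fun _ _ => id) (.tail (k1.cluster.monoA fun z hz => k5 z hz.2)
    k2 trivial (k5 u k1) fun k => k4 (comp_subset k))⟩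

theorem conn_row' {i i' j : ℤ} (h : ∀ k, (i ≤ k ∧ k ≤ i') ∨ (i' ≤ k ∧ k ≤ i) → (k, j) ∈ A) :
    Conn (fun _ _ => True) A (i, j) (i', j) :=
  (le_total i i').elim (fun k => conn_row k (fun _ k1 k2 => h _ (Or.inl ⟨k1, k2⟩)) fun _ _ _ => trivial)
    fun k => (conn_row k (fun _ k1 k2 => h _ (Or.inr ⟨k1, k2⟩)) fun _ _ _ => trivial).symm
      fun _ _ => id

theorem conn_col' {i j j' : ℤ} (h : ∀ k, (j ≤ k ∧ k ≤ j') ∨ (j' ≤ k ∧ k ≤ j) → (i, k) ∈ A) :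
    Conn (fun _ _ => True) A (i, j) (i, j') :=
  (le_total j j').elim (fun k => conn_col k (fun _ k1 k2 => h _ (Or.inl ⟨k1, k2⟩)) fun _ _ _ => trivial)
    fun k => (conn_col k (fun _ k1 k2 => h _ (Or.inr ⟨k1, k2⟩)) fun _ _ _ => trivial).symm
      fun _ _ => id

theorem not_mem_hex : y ∉ hex x r ↔ y.1 < x.1 - r ∨ x.1 + r < y.1 ∨ y.2 < x.2 - r ∨
    x.2 + r < y.2 ∨ y.1 + y.2 < x.1 + x.2 - r ∨ x.1 + x.2 + r < y.1 + y.2 := by
  rw [mem_hex, nrm_sub_le_iff]; omega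

/-- The complement of a hexagon is connected. -/
theorem cn_compl_hex (x : V) (r : ℕ) : Cn (hex x r)ᶜ := by
  refine Cn.of_base (E := fun _ _ => True) (x := (x.1 + r + 1, x.2 + r + 1)) fun ⟨i, j⟩ h => ?_
  have h' := not_mem_hex.1 h
  dsimp only at h'
  by_cases k : i < x.1 - r ∨ (i ≤ x.1 + r ∧ i + j < x.1 + x.2 - r)
  · refine (conn_row' (i' := x.1 - r - 1) fun _ _ => ?_).trans
      ((conn_col' (j' := j) fun _ _ => ?_).trans (conn_row' fun _ _ => ?_)) <;>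
    exact not_mem_hex.2 (by dsimp only; omega)
  · refine (conn_col' (j' := j) fun _ _ => ?_).trans (conn_row' fun _ _ => ?_) <;>
    exact not_mem_hex.2 (by dsimp only; omega)

/-! ### Screens -/

/-- The region round `x` left unexplored by the `E`-cluster of the set `O`. -/
def scr (E : V → V → Prop) (O : Set V) (x : V) : Set V := comp (cl E O)ᶜ x

theorem scr_subset : scr E O x ⊆ Oᶜ := fun _ h k => comp_subset h (subset_cl k)

theorem cn_scr : Cn (scr E O x) := cn_comp _ _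

theorem cn_compl_scr (hO : Cn O) (hne : O.Nonempty) : Cn (scr E O x)ᶜ :=
  cn_compl_comp hO.cl (hne.mono subset_cl) x

theorem obd_scr : obd (scr E O x) ⊆ cl E O := fun _ h => not_not.1 (obd_comp h).1

/-- The edges leaving the screen are closed. -/
theorem scr_cut (hu : u ∈ scr E O x) (hv : v ∉ scr E O x) (h : Adj v u) : ¬ E v u := fun k =>
  comp_subset hu (cl_step (obd_scr ⟨hv, u, hu, h⟩) h k)

theorem scr_bd (S : Set V) : ibd (scr (star Sᶜ) O x) ∪ obd (scr (star Sᶜ) O x) ⊆ S := by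
  rintro a (⟨h1, b, h2, h3⟩ | ⟨h1, b, h2, h3⟩)
  exacts [(not_star_compl.1 (scr_cut h1 h2 h3.symm)).2, (not_star_compl.1 (scr_cut h2 h1 h3)).1]

/-- The screen only depends on the edges starting outside it. -/
theorem scr_congr (h : ∀ a, a ∉ scr E O x → ∀ b, Adj a b → (E a b ↔ E' a b)) :
    scr E' O x = scr E O x := by
  rw [scr, cl_congr fun a ha => h a fun k => comp_subset k ha, scr]

theorem subset_scr (hU : Cn U) (hx : x ∈ U) (h : ∀ a ∈ U, a ∉ cl E O) : U ⊆ scr E O x :=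
  hU.subset_comp h hx

/-- Without an arm the screen contains the small hexagon. -/
theorem hex_subset_scr (hE : ∀ a b, E a b → E b a) (hr : r ≤ R) (hO : O ⊆ {v | R ≤ nrm (v - x)})
    (h : ¬ Arm E x r R) : hex x r ⊆ scr E O x :=
  subset_scr (cn_hex x r) (self_mem_hex x r) fun _ ha ⟨_, h1, h2⟩ =>
    h ((h2.symm hE).arm ha hr (hO h1))

/-- The screen left by the minus edges has a band boundary condition. -/
theorem scr_band {H : Cfg} {j : ℤ} (hH : Lip H) (hO : Cn O) (hne : O.Nonempty) :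
    ∃ k, (k - j) % 4 = 0 ∧ ∀ a ∈ ibd (scr (star (sp j H)ᶜ) O x) ∪ obd (scr (star (sp j H)ᶜ) O x),
      H a = k ∨ H a = k + 1 :=
  band_of_cn hH (cn_bd cn_scr (cn_compl_scr hO hne)) (scr_bd _)

theorem sp_compl (j : ℤ) (H : Cfg) : (sp j H)ᶜ = sp (j + 2) H := by
  ext x; simp only [sp, mem_compl_iff, mem_ofPred_eq]; omega

end Vale.Agent.P153
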